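import Mathlib
import Crest.Prelude.Def_BernoulliConv

set_option autoImplicit false

namespace Crest.Agent.H0104
open Crest.AnalysisR Polynomial

lemma exists_factor {β : ℝ} (h : IsQuarticSalem β) :
    ∃ ω : ℂ, ‖ω‖ = 1 ∧ ∃ p q : ℤ, (β + β⁻¹) + 2 * ω.re = p ∧ (β + β⁻¹) * (2 * ω.re) = q := by
  classical
  obtain ⟨h1, hint, hdeg, hinv, hroots⟩ := h
  have hintQ : IsIntegral ℚ β := hint.tower_top
  set P := minpoly ℚ β with hP
  have hPZ : P = (minpoly ℤ β).map (algebraMap ℤ ℚ) :=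
    minpoly.isIntegrallyClosed_eq_field_fractions' ℚ hint
  have hirr : Irreducible P := minpoly.irreducible hintQ
  have hmon : P.Monic := minpoly.monic hintQ
  set PC := P.map (algebraMap ℚ ℂ) with hPC
  have hPCm : PC.Monic := hmon.map _
  have hPCd : PC.natDegree = 4 := by rw [hPC, natDegree_map, hdeg]
  have hsep : PC.Separable := hirr.separable.map
  have hcard : PC.roots.toFinset.card = 4 := by
    rw [Multiset.toFinset_card_of_nodup (nodup_roots hsep), ← hPCd]
    exact ((IsAlgClosed.splits PC).natDegree_eq_card_roots).symm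
  have hev : ∀ z : ℂ, PC.eval z = aeval z P := fun z => by
    rw [hPC, eval_map_algebraMap]
  have hreal : ∀ x : ℝ, aeval (x : ℂ) P = ((aeval x P : ℝ) : ℂ) := fun x =>
    aeval_algebraMap_apply ℂ x P
  obtain ⟨ω, hω, hω'⟩ : ∃ ω ∈ PC.roots.toFinset, ω ∉ ({(β : ℂ), ((β⁻¹ : ℝ) : ℂ)} : Finset ℂ) := by
    by_contra hc
    push Not at hc
    have := Finset.card_le_card (show PC.roots.toFinset ⊆ _ from hc)
    have h2 := Finset.card_le_two (a := (β : ℂ)) (b := ((β⁻¹ : ℝ) : ℂ))
    omega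
  simp only [Finset.mem_insert, Finset.mem_singleton, not_or] at hω'
  have hωr : aeval ω P = 0 := by
    rw [Multiset.mem_toFinset, mem_roots hPCm.ne_zero, IsRoot.def, hev] at hω
    exact hω
  have hn : ‖ω‖ = 1 := by
    rcases hroots ω hωr with h | h | h
    · exact absurd h hω'.1
    · exact absurd h hω'.2
    · exact h
  have hnorat : ∀ r : ℚ, aeval (r : ℂ) P ≠ 0 := by
    intro r hr
    have h2 : aeval ((algebraMap ℚ ℂ) r) P = algebraMap ℚ ℂ (aeval r P) :=
      aeval_algebraMap_apply ℂ r P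
    have h3 : P.IsRoot r := by
      have : algebraMap ℚ ℂ (aeval r P) = 0 := by rw [← h2]; exact hr
      simpa using this
    have := degree_eq_one_of_irreducible_of_root hirr h3
    have h4 := natDegree_eq_of_degree_eq_some (n := 1) this
    omega
  have him : ω.im ≠ 0 := by
    intro h0
    have h2 : ω = (ω.re : ℂ) := by apply Complex.ext <;> simp [h0]
    have h3 : |ω.re| = 1 := by rw [← hn]; conv_rhs => rw [h2]; simp
    rcases abs_eq (by norm_num : (0 : ℝ) ≤ 1) |>.1 h3 with h4 | h4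
    · apply hnorat 1; rw [h2, h4] at hωr; simpa using hωr
    · apply hnorat (-1); rw [h2, h4] at hωr; simpa using hωr
  have hωc : aeval (starRingEnd ℂ ω) P = 0 := by
    have := aeval_algHom_apply (Complex.conjAe.toAlgHom.restrictScalars ℚ) ω P
    simp only [AlgHom.coe_restrictScalars', AlgEquiv.coe_toAlgHom, Complex.conjAe_coe] at this
    rw [this, hωr, map_zero]
  have hβ0 : β ≠ 0 := by linarith
  have hmul : ω * starRingEnd ℂ ω = 1 := by
    rw [Complex.mul_conj, Complex.normSq_eq_norm_sq, hn]; simp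
  have hadd : ω + starRingEnd ℂ ω = ((2 * ω.re : ℝ) : ℂ) := Complex.add_conj ω
  set a : ℝ := β + β⁻¹ with ha
  set b : ℝ := 2 * ω.re with hb
  let Q : ℂ[X] := X ^ 4 - C ((a + b : ℝ) : ℂ) * X ^ 3 + C ((2 + a * b : ℝ) : ℂ) * X ^ 2 -
    C ((a + b : ℝ) : ℂ) * X + 1
  have hQev : ∀ z : ℂ, Q.eval z = (z ^ 2 - (a : ℂ) * z + 1) * (z ^ 2 - (b : ℂ) * z + 1) := by
    intro z; simp only [Q, eval_add, eval_sub, eval_mul, eval_pow, eval_X, eval_C, eval_one]
    push_cast; ring
  have hQm : Q.Monic := by unfold Q; monicity!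
  have hQd : Q.degree = 4 := by unfold Q; compute_degree!
  have hPCd' : PC.degree = 4 := by
    rw [degree_eq_natDegree hPCm.ne_zero, hPCd]; rfl
  have hβne : (β : ℂ) ≠ ((β⁻¹ : ℝ) : ℂ) := by
    intro h
    have h2 : β = β⁻¹ := by exact_mod_cast h
    have : β⁻¹ < 1 := inv_lt_one_of_one_lt₀ h1
    linarith
  have hre : ∀ x : ℝ, (x : ℂ) ≠ starRingEnd ℂ ω := by
    intro x hx
    have := congrArg Complex.im hx
    simp at this
    exact him this
  have hωne : ω ≠ starRingEnd ℂ ω := by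
    intro hx
    have := congrArg Complex.im hx
    simp at this
    apply him; linarith
  have heq : PC = Q := by
    refine eq_of_degree_sub_lt_of_eval_finset_eq
      ({(β : ℂ), ((β⁻¹ : ℝ) : ℂ), ω, starRingEnd ℂ ω} : Finset ℂ) ?_ ?_
    · have hc : ({(β : ℂ), ((β⁻¹ : ℝ) : ℂ), ω, starRingEnd ℂ ω} : Finset ℂ).card = 4 := by
        rw [Finset.card_insert_of_notMem, Finset.card_insert_of_notMem, Finset.card_pair hωne]
        · simp only [Finset.mem_insert, Finset.mem_singleton, not_or]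
          exact ⟨fun h => hω'.2 h.symm, hre _⟩
        · simp only [Finset.mem_insert, Finset.mem_singleton, not_or]
          exact ⟨hβne, fun h => hω'.1 h.symm, hre _⟩
      rw [hc]
      have := degree_sub_lt_left (p := PC) (q := Q) (by rw [hPCd', hQd]) hPCm.ne_zero
        (by rw [hPCm.leadingCoeff, hQm.leadingCoeff])
      rw [hPCd'] at this
      exact this
    · intro z hz
      simp only [Finset.mem_insert, Finset.mem_singleton] at hz
      rw [hev, hQev]
      have hβc : (β : ℂ) ≠ 0 := by exact_mod_cast hβ0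
      rcases hz with rfl | rfl | rfl | rfl
      · rw [hreal, minpoly.aeval]
        have : ((β : ℂ) ^ 2 - (a : ℂ) * β + 1) = 0 := by
          rw [ha]; push_cast; field_simp; ring
        rw [this]; simp
      · rw [hreal, hinv]
        have : (((β⁻¹ : ℝ) : ℂ) ^ 2 - (a : ℂ) * ((β⁻¹ : ℝ) : ℂ) + 1) = 0 := by
          rw [ha]; push_cast; field_simp; ring
        rw [this]; simp
      · rw [hωr]
        have : (z ^ 2 - (b : ℂ) * z + 1) = 0 := by
          rw [← hadd, ← hmul]; ring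
        rw [this]; simp
      · rw [hωc]
        have : ((starRingEnd ℂ ω) ^ 2 - (b : ℂ) * (starRingEnd ℂ ω) + 1) = 0 := by
          rw [← hadd, ← hmul]; ring
        rw [this]; simp
  have hco : ∀ k, Q.coeff k = (((minpoly ℤ β).coeff k : ℤ) : ℂ) := by
    intro k
    rw [← heq, hPC, hPZ, coeff_map, coeff_map]
    simp
  have h3 := hco 3
  have h2 := hco 2
  simp only [Q, coeff_add, coeff_sub, coeff_C_mul, coeff_X_pow, coeff_X, coeff_one] at h3 h2
  norm_num at h3 h2
  refine ⟨ω, hn, -(minpoly ℤ β).coeff 3, (minpoly ℤ β).coeff 2 - 2, ?_, ?_⟩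
  · have : ((a + b : ℝ) : ℂ) = ((-(minpoly ℤ β).coeff 3 : ℤ) : ℂ) := by
      push_cast; rw [← h3]; ring
    exact_mod_cast this
  · have : ((a * b : ℝ) : ℂ) = (((minpoly ℤ β).coeff 2 - 2 : ℤ) : ℂ) := by
      push_cast; rw [← h2]; ring
    exact_mod_cast this

/-- trace triple -/
def Tr (β : ℝ) (ω : ℂ) (u s : ℝ) (c : ℂ) : Prop :=
  ∀ j : ℤ, ∃ n : ℤ, u * β ^ j + s * β⁻¹ ^ j + 2 * (c * ω ^ j).re = n

lemma tr_base {β : ℝ} {ω : ℂ} (hβ : β ≠ 0) (hω : ‖ω‖ = 1) {p q : ℤ}
    (hp : (β + β⁻¹) + 2 * ω.re = p) (hq : (β + β⁻¹) * (2 * ω.re) = q) : Tr β ω 1 1 1 := by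
  have hω0 : ω ≠ 0 := by rintro rfl; simp at hω
  have hinv : ω⁻¹ = starRingEnd ℂ ω := by
    rw [Complex.inv_def, Complex.normSq_eq_norm_sq, hω]; simp
  set a : ℝ := β + β⁻¹ with ha
  set b : ℝ := 2 * ω.re with hb
  let A : ℕ → ℝ := fun k => β ^ k + β⁻¹ ^ k
  let B : ℕ → ℝ := fun k => 2 * (ω ^ k).re
  have hA : ∀ k, A (k + 2) = a * A (k + 1) - A k := by
    intro k; simp only [A, ha, pow_succ]; field_simp; ring
  have hB : ∀ k, B (k + 2) = b * B (k + 1) - B k := by
    intro k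
    have h1 : ω.re ^ 2 + ω.im ^ 2 = 1 := by
      have := Complex.normSq_eq_norm_sq ω
      rw [hω, Complex.normSq_apply] at this
      linarith
    simp only [B, hb, pow_succ, Complex.mul_re, Complex.mul_im]
    linear_combination (-2 * (ω ^ k).re) * h1
  have hrec : ∀ k, A (k + 4) + B (k + 4) = p * (A (k + 3) + B (k + 3)) -
      (2 + q) * (A (k + 2) + B (k + 2)) + p * (A (k + 1) + B (k + 1)) - (A k + B k) := by
    intro k
    rw [← hp, ← hq, hA (k + 2), hB (k + 2), hA (k + 1), hB (k + 1), hA k, hB k]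
    ring
  have hA0 : A 0 = 2 := by simp [A]; norm_num
  have hA1 : A 1 = a := by simp [A, ha]
  have hB0 : B 0 = 2 := by simp [B]
  have hB1 : B 1 = b := by simp [B, hb]
  have hnat : ∀ k, ∃ n : ℤ, A k + B k = n := by
    intro k
    induction k using Nat.strong_induction_on with
    | _ k ih =>
      match k with
      | 0 => exact ⟨4, by rw [hA0, hB0]; norm_num⟩
      | 1 => exact ⟨p, by rw [hA1, hB1, hp]⟩
      | 2 => exact ⟨p ^ 2 - 2 * q - 4, by
          rw [hA 0, hB 0, hA0, hB0, hA1, hB1]; push_cast; rw [← hp, ← hq]; ring⟩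
      | 3 => exact ⟨p ^ 3 - 3 * p * q - 3 * p, by
          rw [hA 1, hB 1, hA 0, hB 0, hA0, hB0, hA1, hB1]; push_cast; rw [← hp, ← hq]; ring⟩
      | k + 4 =>
        obtain ⟨n0, h0⟩ := ih k (by omega)
        obtain ⟨n1, h1⟩ := ih (k + 1) (by omega)
        obtain ⟨n2, h2⟩ := ih (k + 2) (by omega)
        obtain ⟨n3, h3⟩ := ih (k + 3) (by omega)
        exact ⟨p * n3 - (2 + q) * n2 + p * n1 - n0, by
          rw [hrec, h0, h1, h2, h3]; push_cast; ring⟩
  intro j
  obtain ⟨k, rfl | rfl⟩ := j.eq_nat_or_neg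
  · obtain ⟨n, hn⟩ := hnat k
    exact ⟨n, by simpa [A, B] using hn⟩
  · obtain ⟨n, hn⟩ := hnat k
    refine ⟨n, ?_⟩
    rw [← hn]
    simp only [A, B, one_mul, zpow_neg, zpow_natCast, ← inv_pow, inv_inv, hinv, ← map_pow,
      Complex.conj_re]
    ring

lemma cos_ne_zero_of_integral {y : ℝ} (hy : IsIntegral ℤ y) : Real.cos (2 * Real.pi * y) ≠ 0 := by
  intro h
  obtain ⟨k, hk⟩ := Real.cos_eq_zero_iff.1 h
  have h1 : y = algebraMap ℚ ℝ ((2 * k + 1) / 4) := by
    have := Real.pi_pos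
    simp only [eq_ratCast]
    push_cast
    field_simp
    field_simp at hk
    linarith
  rw [h1, isIntegral_algebraMap_iff (algebraMap ℚ ℝ).injective,
    IsIntegrallyClosed.isIntegral_iff] at hy
  obtain ⟨n, hn⟩ := hy
  have h2 : (4 * n : ℚ) = 2 * k + 1 := by
    simp only [eq_intCast] at hn
    rw [hn]; ring
  have h3 : 4 * n = 2 * k + 1 := by exact_mod_cast h2
  omega

lemma integral_inv {β : ℝ} (h : IsQuarticSalem β) : IsIntegral ℤ β⁻¹ := by
  obtain ⟨-, hint, -, hinv, -⟩ := h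
  refine ⟨minpoly ℤ β, minpoly.monic hint, ?_⟩
  rw [minpoly.isIntegrallyClosed_eq_field_fractions' ℚ hint, aeval_map_algebraMap] at hinv
  exact hinv

end Crest.Agent.H0104
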