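import Mathlib
import Crest.Agent.H0104.Alg

set_option autoImplicit false

namespace Crest.Agent.H0104
open Finset

/-- the modulus of the cosine factor -/
noncomputable def ph (x : ℝ) : ℝ := |Real.cos (2 * Real.pi * x)|

lemma ph_nonneg (x : ℝ) : 0 ≤ ph x := abs_nonneg _
lemma ph_le_one (x : ℝ) : ph x ≤ 1 := Real.abs_cos_le_one _

lemma cos_lip (x y : ℝ) :
    |Real.cos (2 * Real.pi * x) - Real.cos (2 * Real.pi * y)| ≤ 7 * |x - y| := by
  refine (Real.abs_cos_sub_cos_le _ _).trans ?_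
  rw [← mul_sub, abs_mul, abs_of_pos (by positivity : 0 < 2 * Real.pi)]
  gcongr
  linarith [Real.pi_lt_d2]

lemma cos_add_int (x : ℝ) (n : ℤ) :
    Real.cos (2 * Real.pi * (x + n)) = Real.cos (2 * Real.pi * x) := by
  rw [show 2 * Real.pi * (x + n) = 2 * Real.pi * x + n * (2 * Real.pi) by ring,
    Real.cos_add_int_mul_two_pi]

lemma ph_neg (x : ℝ) : ph (-x) = ph x := by simp [ph]

lemma ph_near {x y e : ℝ} (n : ℤ) (h : |y - x - n| ≤ e) : ph x - 7 * e ≤ ph y := by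
  have h1 := cos_lip y (x + n)
  rw [cos_add_int, ← sub_sub] at h1
  have h2 := abs_sub_abs_le_abs_sub (Real.cos (2 * Real.pi * x)) (Real.cos (2 * Real.pi * y))
  rw [abs_sub_comm] at h2
  unfold ph
  linarith

lemma ph_near' {x y e : ℝ} (n : ℤ) (h : |y + x - n| ≤ e) : ph x - 7 * e ≤ ph y := by
  rw [← ph_neg x]
  exact ph_near n (by simpa using h)

lemma ph_small {y e : ℝ} (n : ℤ) (h : |y - n| ≤ e) : 1 - 20 * e ^ 2 ≤ ph y := by
  have h1 : Real.cos (2 * Real.pi * y) = Real.cos (2 * Real.pi * (y - n)) := by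
    rw [← cos_add_int (y - n) n]; simp
  have h2 := Real.one_sub_sq_div_two_le_cos (x := 2 * Real.pi * (y - n))
  have h3 : (y - n) ^ 2 ≤ e ^ 2 := by rw [← sq_abs]; gcongr
  have h4 : Real.pi ^ 2 ≤ 10 := by nlinarith [Real.pi_lt_d2, Real.pi_pos]
  have h5 : (2 * Real.pi * (y - n)) ^ 2 / 2 ≤ 20 * e ^ 2 := by
    have : Real.pi ^ 2 * (y - n) ^ 2 ≤ 10 * e ^ 2 := by gcongr
    nlinarith
  unfold ph
  rw [h1]
  linarith [le_abs_self (Real.cos (2 * Real.pi * (y - n)))]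

lemma one_sub_sum_le (n : ℕ) (x : ℕ → ℝ) (h0 : ∀ j < n, 0 ≤ x j) (h1 : ∀ j < n, x j ≤ 1) :
    1 - ∑ j ∈ range n, x j ≤ ∏ j ∈ range n, (1 - x j) := by
  induction n with
  | zero => simp
  | succ n ih =>
    rw [sum_range_succ, prod_range_succ]
    have ih' := ih (fun j hj => h0 j (by omega)) (fun j hj => h1 j (by omega))
    have hs : 0 ≤ ∑ j ∈ range n, x j := sum_nonneg fun j hj => h0 j (by
      have := mem_range.1 hj; omega)
    have h2 := h0 n (by omega)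
    have h3 := h1 n (by omega)
    nlinarith

lemma prod_pert (n : ℕ) (a v e : ℕ → ℝ) {κ p : ℝ} (hκ : 0 < κ) (ha : ∀ j < n, κ ≤ a j)
    (he : ∀ j < n, 0 ≤ e j) (hv : ∀ j < n, a j - 7 * e j ≤ v j) (hs : ∑ j ∈ range n, e j ≤ p)
    (hp : 14 * p ≤ κ) :
    (∀ j < n, κ - 7 * p ≤ v j) ∧ (∏ j ∈ range n, a j) / 2 ≤ ∏ j ∈ range n, v j := by
  have hep : ∀ j < n, e j ≤ p := fun j hj =>
    (single_le_sum (f := e) (fun i hi => he i (mem_range.1 hi)) (mem_range.2 hj)).trans hs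
  refine ⟨fun j hj => by linarith [ha j hj, hv j hj, hep j hj], ?_⟩
  have h1 : ∀ j < n, 7 * e j / κ ≤ 1 := fun j hj => by
    rw [div_le_one hκ]; linarith [hep j hj, he j hj]
  have h2 := one_sub_sum_le n (fun j => 7 * e j / κ) (fun j hj => by
    have := he j hj; positivity) h1
  have h3 : ∑ j ∈ range n, 7 * e j / κ ≤ 1 / 2 := by
    rw [← sum_div, ← mul_sum, div_le_iff₀ hκ]; linarith
  have h4 : ∏ j ∈ range n, (a j * (1 - 7 * e j / κ)) ≤ ∏ j ∈ range n, v j := by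
    refine prod_le_prod (fun j hj => ?_) (fun j hj => ?_)
    · have hj := mem_range.1 hj
      exact mul_nonneg (by linarith [ha j hj]) (by linarith [h1 j hj])
    · have hj := mem_range.1 hj
      have : 7 * e j ≤ a j * (7 * e j / κ) := by
        rw [mul_div_assoc', le_div_iff₀ hκ]
        have := he j hj
        have := ha j hj
        nlinarith
      linarith [hv j hj]
  rw [prod_mul_distrib] at h4
  have h5 : 0 ≤ ∏ j ∈ range n, a j :=
    prod_nonneg fun j hj => by linarith [ha j (mem_range.1 hj)]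
  nlinarith

lemma prod_small (n : ℕ) (v e : ℕ → ℝ) (hv : ∀ j < n, 1 - 20 * e j ^ 2 ≤ v j)
    (hs : ∑ j ∈ range n, e j ^ 2 ≤ 1 / 40) : 1 / 2 ≤ ∏ j ∈ range n, v j := by
  have hep : ∀ j < n, e j ^ 2 ≤ 1 / 40 := fun j hj =>
    (single_le_sum (f := fun j => e j ^ 2) (fun i _ => sq_nonneg _) (mem_range.2 hj)).trans hs
  have h2 := one_sub_sum_le n (fun j => 20 * e j ^ 2) (fun j _ => by positivity)
    (fun j hj => by linarith [hep j hj])
  rw [← mul_sum] at h2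
  refine le_trans (by linarith) (h2.trans (prod_le_prod (fun j hj => ?_) fun j hj => ?_))
  · linarith [hep j (mem_range.1 hj)]
  · exact hv j (mem_range.1 hj)

lemma three_cases {L G M : ℕ} (P : ℕ → Prop) (h1 : ∀ j < L, P j) (h2 : ∀ i < G, P (L + i))
    (h3 : ∀ i < M, P (L + G + i)) : ∀ j < L + G + M, P j := by
  intro j hj
  rcases lt_or_ge j L with h | h
  · exact h1 j h
  · rcases lt_or_ge j (L + G) with h' | h'
    · have := h2 (j - L) (by omega)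
      rwa [show L + (j - L) = j by omega] at this
    · have := h3 (j - (L + G)) (by omega)
      rwa [show L + G + (j - (L + G)) = j by omega] at this

section
variable {β : ℝ} {ω : ℂ}

lemma Tr.shift {u s : ℝ} {c : ℂ} (hβ : β ≠ 0) (hω : ω ≠ 0) (h : Tr β ω u s c) (T : ℕ) :
    Tr β ω (u * β⁻¹ ^ T) (s * β ^ T) (c * ω⁻¹ ^ T) := by
  intro j
  obtain ⟨n, hn⟩ := h (j - T)
  refine ⟨n, ?_⟩
  rw [← hn, zpow_sub₀ hβ, zpow_sub₀ (inv_ne_zero hβ), zpow_sub₀ hω]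
  simp only [zpow_natCast, inv_pow, div_eq_mul_inv, inv_inv]
  congr 2
  · ring
  · ring
  · ring_nf

lemma Tr.sub {u s u' s' : ℝ} {c c' : ℂ} (h : Tr β ω u s c) (h' : Tr β ω u' s' c') :
    Tr β ω (u - u') (s - s') (c - c') := by
  intro j
  obtain ⟨n, hn⟩ := h j
  obtain ⟨n', hn'⟩ := h' j
  refine ⟨n - n', ?_⟩
  push_cast
  rw [← hn, ← hn', sub_mul c, Complex.sub_re]
  ring

lemma Tr.nat {u s : ℝ} {c : ℂ} (hω : ‖ω‖ = 1) (h : Tr β ω u s c) {ρ : ℝ} (hc : ‖c‖ ≤ ρ) (j : ℕ) :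
    ∃ n : ℤ, |u * β ^ j + s * β⁻¹ ^ j - n| ≤ 2 * ρ := by
  obtain ⟨n, hn⟩ := h j
  refine ⟨n, ?_⟩
  simp only [zpow_natCast] at hn
  rw [← hn, show u * β ^ j + s * β⁻¹ ^ j - (u * β ^ j + s * β⁻¹ ^ j + 2 * (c * ω ^ j).re) =
    -(2 * (c * ω ^ j).re) by ring, abs_neg, abs_mul, abs_two]
  have := Complex.abs_re_le_norm (c * ω ^ j)
  rw [norm_mul, norm_pow, hω, one_pow, mul_one] at this
  linarith

lemma geo_le (hβ : 1 < β) (n : ℕ) : ∑ i ∈ range n, β⁻¹ ^ i ≤ β / (β - 1) := by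
  have h0 : 0 < β - 1 := by linarith
  have hβ0 : 0 < β := by linarith
  have key : ∀ n : ℕ, ∑ i ∈ range n, β⁻¹ ^ i + β⁻¹ ^ n * (β / (β - 1)) = β / (β - 1) := by
    intro n
    induction n with
    | zero => simp
    | succ n ih =>
      have h1 : β⁻¹ ^ n + β⁻¹ ^ (n + 1) * (β / (β - 1)) = β⁻¹ ^ n * (β / (β - 1)) := by
        rw [pow_succ]
        generalize β⁻¹ ^ n = x
        field_simp
        ring
      rw [sum_range_succ, add_assoc, h1, ih]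
  have := key n
  have h2 : 0 ≤ β⁻¹ ^ n * (β / (β - 1)) := by positivity
  linarith

lemma geo_le' (hβ : 1 < β) (n : ℕ) : ∑ i ∈ range n, β⁻¹ ^ n * β ^ i ≤ β / (β - 1) := by
  have hβ0 : 0 < β := by linarith
  refine le_trans ?_ (geo_le hβ n)
  rw [← sum_range_reflect (fun i => β⁻¹ ^ i)]
  refine sum_le_sum fun i hi => ?_
  have hi := mem_range.1 hi
  obtain ⟨k, rfl⟩ : ∃ k, n = k + 1 + i := ⟨n - 1 - i, by omega⟩
  rw [show k + 1 + i - 1 - i = k by omega, pow_add, pow_add, mul_assoc, ← mul_pow,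
    inv_mul_cancel₀ hβ0.ne', one_pow, mul_one, pow_one]
  exact mul_le_of_le_one_right (by positivity) (inv_le_one_of_one_le₀ hβ.le)

/-- a state of the recursion -/
structure St (β : ℝ) (ω : ℂ) (u s : ℝ) (c : ℂ) (L : ℕ) (τ κ : ℝ) : Prop where
  tr : Tr β ω u s c
  hu : |u| ≤ τ
  hs : |s| * β⁻¹ ^ L ≤ τ
  hl : 1 ≤ |u| * β ^ L
  k1 : ∀ j < L, κ ≤ ph (u * β ^ j)
  k2 : ∀ j < L, κ ≤ ph (s * β⁻¹ ^ j)

/-- the two products -/
noncomputable def PA (β u : ℝ) (L : ℕ) : ℝ := ∏ j ∈ range L, ph (u * β ^ j)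
noncomputable def PB (β s : ℝ) (L : ℕ) : ℝ := ∏ j ∈ range L, ph (s * β⁻¹ ^ j)

lemma sq3 (a b c : ℝ) : (a + b + c) ^ 2 ≤ 3 * (a ^ 2 + b ^ 2 + c ^ 2) := by
  nlinarith [sq_nonneg (a - b), sq_nonneg (b - c), sq_nonneg (a - c)]

lemma mid_sum (hβ : 1 < β) {τ ρ : ℝ} (G : ℕ)
    (h1 : τ ^ 2 * (β / (β - 1)) ≤ 1 / 480) (h2 : ρ ^ 2 * G ≤ 1 / 960) :
    ∑ i ∈ range G, (τ * β⁻¹ ^ i + 2 * ρ + τ * (β⁻¹ ^ G * β ^ i)) ^ 2 ≤ 1 / 40 := by
  have hβ0 : 0 < β := by linarith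
  have hγ : β⁻¹ ≤ 1 := inv_le_one_of_one_le₀ hβ.le
  have h3 : ∀ i ∈ range G, (τ * β⁻¹ ^ i + 2 * ρ + τ * (β⁻¹ ^ G * β ^ i)) ^ 2 ≤
      3 * (τ ^ 2 * β⁻¹ ^ i + 4 * ρ ^ 2 + τ ^ 2 * (β⁻¹ ^ G * β ^ i)) := by
    intro i hi
    have hi := mem_range.1 hi
    refine (sq3 _ _ _).trans ?_
    have e1 : β⁻¹ ^ i ≤ 1 := pow_le_one₀ (by positivity) hγ
    have e2 : β⁻¹ ^ G * β ^ i ≤ 1 := by
      rw [inv_pow, inv_mul_le_iff₀ (by positivity), mul_one]
      exact pow_le_pow_right₀ hβ.le hi.le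
    have e3 : (β⁻¹ ^ i) ^ 2 ≤ β⁻¹ ^ i := by
      rw [sq]; exact mul_le_of_le_one_left (by positivity) e1
    have e4 : (β⁻¹ ^ G * β ^ i) ^ 2 ≤ β⁻¹ ^ G * β ^ i := by
      rw [sq]; exact mul_le_of_le_one_left (by positivity) e2
    have e5 := mul_le_mul_of_nonneg_left e3 (sq_nonneg τ)
    have e6 := mul_le_mul_of_nonneg_left e4 (sq_nonneg τ)
    rw [mul_pow, mul_pow, mul_pow τ]
    linarith
  refine (sum_le_sum h3).trans ?_
  rw [← mul_sum, sum_add_distrib, sum_add_distrib, ← mul_sum, ← mul_sum, ← mul_sum]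
  have e1 := mul_le_mul_of_nonneg_left (geo_le hβ G) (sq_nonneg τ)
  have e2 := mul_le_mul_of_nonneg_left (geo_le' hβ G) (sq_nonneg τ)
  simp only [sum_const, card_range, nsmul_eq_mul]
  linarith

lemma mid_pt (hβ : 1 < β) {τ ρ : ℝ} (hτ0 : 0 ≤ τ) (hρ0 : 0 ≤ ρ) (hτ : τ ≤ 1 / 40)
    (hρ : ρ ≤ 1 / 40) {G i : ℕ} (hi : i < G) :
    1 / 2 ≤ 1 - 20 * (τ * β⁻¹ ^ i + 2 * ρ + τ * (β⁻¹ ^ G * β ^ i)) ^ 2 := by
  have hβ0 : 0 < β := by linarith
  have hγ : β⁻¹ ≤ 1 := inv_le_one_of_one_le₀ hβ.le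
  have e1 : β⁻¹ ^ i ≤ 1 := pow_le_one₀ (by positivity) hγ
  have e2 : β⁻¹ ^ G * β ^ i ≤ 1 := by
    rw [inv_pow, inv_mul_le_iff₀ (by positivity), mul_one]
    exact pow_le_pow_right₀ hβ.le hi.le
  have e3 : τ * β⁻¹ ^ i ≤ τ := mul_le_of_le_one_right hτ0 e1
  have e4 : τ * (β⁻¹ ^ G * β ^ i) ≤ τ := mul_le_of_le_one_right hτ0 e2
  have e5 : (τ * β⁻¹ ^ i + 2 * ρ + τ * (β⁻¹ ^ G * β ^ i)) ^ 2 ≤ (1 / 10) ^ 2 := by
    gcongr
    linarith
  linarith

theorem St.step (hβ : 1 < β) (hω : ‖ω‖ = 1) {u s : ℝ} {c : ℂ} {L : ℕ} {τ κ ρ ρ' p : ℝ}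
    (h : St β ω u s c L τ κ) (hκ0 : 0 < κ) (hκ : κ ≤ 1 / 2) (hτ : τ ≤ 1 / 40) (hρ : ρ ≤ 1 / 40)
    (hc : ‖c‖ ≤ ρ) (hL : β⁻¹ ^ L ≤ 1 / 2) (G : ℕ) (hG : L ≤ G)
    (hc' : ‖c - c * ω⁻¹ ^ (L + G)‖ ≤ ρ')
    (hp : τ * (β / (β - 1)) * β⁻¹ ^ L + 2 * ρ' * L ≤ p) (hp2 : 14 * p ≤ κ) :
    St β ω (u - u * β⁻¹ ^ (L + G)) (s - s * β ^ (L + G)) (c - c * ω⁻¹ ^ (L + G)) (L + G + L) τ
      (κ - 7 * p) ∧
    (τ ^ 2 * (β / (β - 1)) ≤ 1 / 480 → ρ ^ 2 * G ≤ 1 / 960 →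
      PA β u L * PB β s L / 8 ≤ PA β (u - u * β⁻¹ ^ (L + G)) (L + G + L) ∧
      PA β u L * PB β s L / 8 ≤ PB β (s - s * β ^ (L + G)) (L + G + L)) := by
  have hβ0 : 0 < β := by linarith
  have hω0 : ω ≠ 0 := by rintro rfl; simp at hω
  have hγ : β⁻¹ ≤ 1 := inv_le_one_of_one_le₀ hβ.le
  have hτ0 : 0 ≤ τ := (abs_nonneg _).trans h.hu
  have hρ0 : 0 ≤ ρ := (norm_nonneg _).trans hc
  have hρ0' : 0 ≤ ρ' := (norm_nonneg _).trans hc'
  have hΓ : 0 ≤ β / (β - 1) := div_nonneg hβ0.le (by linarith)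
  have hp0 : 0 ≤ p := le_trans (by positivity) hp
  set γ := β⁻¹ with hγdef
  have hγ0 : 0 < γ := by positivity
  have hγβ : ∀ k : ℕ, γ ^ k * β ^ k = 1 := fun k => by
    rw [← mul_pow, hγdef, inv_mul_cancel₀ hβ0.ne', one_pow]
  have hGL : γ ^ G ≤ γ ^ L := pow_le_pow_of_le_one hγ0.le hγ hG
  have hsh := h.tr.shift hβ0.ne' hω0 (L + G)
  have hnew := h.tr.sub hsh
  have hcs : ‖c * ω⁻¹ ^ (L + G)‖ ≤ ρ := by
    rw [norm_mul, norm_pow, norm_inv, hω]; simpa using hc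
  set u' := u - u * γ ^ (L + G) with hu'
  set s' := s - s * β ^ (L + G) with hs'
  -- error terms
  let e1 : ℕ → ℝ := fun j => τ * γ ^ L * (γ ^ L * β ^ j) + 2 * ρ'
  let e2 : ℕ → ℝ := fun i => τ * γ ^ i + 2 * ρ + τ * (γ ^ G * β ^ i)
  let e3 : ℕ → ℝ := fun i => τ * γ ^ L * γ ^ i + 2 * ρ'
  have he1 : ∑ j ∈ range L, e1 j ≤ p := by
    simp only [e1]
    rw [sum_add_distrib, ← mul_sum, sum_const, card_range, nsmul_eq_mul]
    have := mul_le_mul_of_nonneg_left (geo_le' hβ L) (by positivity : 0 ≤ τ * γ ^ L)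
    linarith
  have he3 : ∑ j ∈ range L, e3 j ≤ p := by
    simp only [e3]
    rw [sum_add_distrib, ← mul_sum, sum_const, card_range, nsmul_eq_mul]
    have := mul_le_mul_of_nonneg_left (geo_le hβ L) (by positivity : 0 ≤ τ * γ ^ L)
    linarith
  have b1 : ∀ j, |u * γ ^ (L + G) * β ^ j| ≤ τ * γ ^ L * (γ ^ L * β ^ j) := by
    intro j
    rw [abs_mul, abs_mul, abs_of_pos (by positivity : 0 < γ ^ (L + G)),
      abs_of_pos (by positivity : 0 < β ^ j), pow_add]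
    have := h.hu
    calc |u| * (γ ^ L * γ ^ G) * β ^ j ≤ τ * (γ ^ L * γ ^ L) * β ^ j := by gcongr
      _ = _ := by ring
  have b2 : ∀ i, |u * γ ^ (L + G) * β ^ (L + i)| ≤ τ * (γ ^ G * β ^ i) := by
    intro i
    rw [abs_mul, abs_mul, abs_of_pos (by positivity : 0 < γ ^ (L + G)),
      abs_of_pos (by positivity : 0 < β ^ (L + i)), pow_add, pow_add]
    have := h.hu
    calc |u| * (γ ^ L * γ ^ G) * (β ^ L * β ^ i) = |u| * (γ ^ G * β ^ i) * (γ ^ L * β ^ L) := by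
          ring
      _ ≤ _ := by rw [hγβ, mul_one]; gcongr
  have b3 : ∀ i, |s * γ ^ (L + i)| ≤ τ * γ ^ i := by
    intro i
    rw [abs_mul, abs_of_pos (by positivity : 0 < γ ^ (L + i)), pow_add, ← mul_assoc]
    have := h.hs
    gcongr
  have b4 : ∀ i, |s * γ ^ (L + G + i)| ≤ τ * γ ^ L * γ ^ i := by
    intro i
    rw [add_assoc]
    refine (b3 _).trans ?_
    rw [pow_add, ← mul_assoc]
    gcongr
  have b5 : ∀ i, s * β ^ (L + G) * γ ^ (L + G + i) = s * γ ^ i := by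
    intro i
    rw [pow_add γ (L + G), mul_assoc, ← mul_assoc (β ^ _), mul_comm (β ^ _), hγβ, one_mul]
  -- pointwise bounds
  have A1 : ∀ j < L, ph (u * β ^ j) - 7 * e1 j ≤ ph (u' * β ^ j) := by
    intro j _
    refine ph_near 0 ?_
    rw [show u' * β ^ j - u * β ^ j - ((0 : ℤ) : ℝ) = -(u * γ ^ (L + G) * β ^ j) by
      rw [hu']; push_cast; ring, abs_neg]
    exact (b1 j).trans (le_add_of_nonneg_right (by positivity))
  have A2 : ∀ i < G, 1 - 20 * e2 i ^ 2 ≤ ph (u' * β ^ (L + i)) := by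
    intro i _
    obtain ⟨n, hn⟩ := h.tr.nat hω hc (L + i)
    refine ph_small n ?_
    rw [show u' * β ^ (L + i) - n = (u * β ^ (L + i) + s * γ ^ (L + i) - n) -
      s * γ ^ (L + i) - u * γ ^ (L + G) * β ^ (L + i) by rw [hu']; ring]
    refine (abs_sub _ _).trans (add_le_add ((abs_sub _ _).trans ?_) (b2 i))
    linarith [b3 i]
  have A3 : ∀ i < L, ph (s * γ ^ i) - 7 * e3 i ≤ ph (u' * β ^ (L + G + i)) := by
    intro i _
    obtain ⟨n, hn⟩ := hnew.nat hω hc' (L + G + i)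
    refine ph_near n ?_
    rw [show u' * β ^ (L + G + i) - s * γ ^ i - n =
      (u' * β ^ (L + G + i) + s' * γ ^ (L + G + i) - n) - s * γ ^ (L + G + i) by
        rw [hs', sub_mul s, b5]; ring]
    refine (abs_sub _ _).trans ?_
    simp only [e3]
    linarith [b4 i]
  have B1 : ∀ j < L, ph (u * β ^ j) - 7 * e1 j ≤ ph (s' * γ ^ j) := by
    intro j _
    obtain ⟨n, hn⟩ := hnew.nat hω hc' j
    refine ph_near' n ?_
    rw [show s' * γ ^ j + u * β ^ j - n = (u' * β ^ j + s' * γ ^ j - n) +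
      u * γ ^ (L + G) * β ^ j by rw [hu']; ring]
    refine (abs_add_le _ _).trans ?_
    simp only [e1]
    linarith [b1 j]
  have B2 : ∀ i < G, 1 - 20 * e2 i ^ 2 ≤ ph (s' * γ ^ (L + i)) := by
    intro i _
    obtain ⟨n, hn⟩ := hsh.nat hω hcs (L + i)
    refine ph_small (-n) ?_
    rw [show s' * γ ^ (L + i) - ((-n : ℤ) : ℝ) = s * γ ^ (L + i) -
      (u * γ ^ (L + G) * β ^ (L + i) + s * β ^ (L + G) * γ ^ (L + i) - n) +
        u * γ ^ (L + G) * β ^ (L + i) by rw [hs']; push_cast; ring]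
    refine (abs_add_le _ _).trans (add_le_add ((abs_sub _ _).trans ?_) (b2 i))
    linarith [b3 i]
  have B3 : ∀ i < L, ph (s * γ ^ i) - 7 * e3 i ≤ ph (s' * γ ^ (L + G + i)) := by
    intro i _
    refine ph_near' 0 ?_
    rw [show s' * γ ^ (L + G + i) + s * γ ^ i - ((0 : ℤ) : ℝ) = s * γ ^ (L + G + i) by
      rw [hs', sub_mul, b5]; push_cast; ring]
    exact (b4 i).trans (le_add_of_nonneg_right (by positivity))
  have hA1 := prod_pert L _ _ e1 hκ0 h.k1 (fun j _ => by positivity) A1 he1 hp2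
  have hA3 := prod_pert L _ _ e3 hκ0 h.k2 (fun j _ => by positivity) A3 he3 hp2
  have hB1 := prod_pert L _ _ e1 hκ0 h.k1 (fun j _ => by positivity) B1 he1 hp2
  have hB3 := prod_pert L _ _ e3 hκ0 h.k2 (fun j _ => by positivity) B3 he3 hp2
  have hT1 : γ ^ (L + G) ≤ 1 / 2 := by
    rw [pow_add]
    have : γ ^ G ≤ 1 := pow_le_one₀ hγ0.le hγ
    nlinarith [pow_pos hγ0 L]
  have hT2 : 2 ≤ β ^ (L + G) := by
    have := hγβ (L + G)
    nlinarith [pow_pos hβ0 (L + G)]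
  refine ⟨⟨hnew, ?_, ?_, ?_, ?_, ?_⟩, fun h1 h2 => ?_⟩
  · rw [hu', ← mul_one_sub, abs_mul, abs_of_nonneg (by linarith : 0 ≤ 1 - γ ^ (L + G))]
    exact (mul_le_of_le_one_right (abs_nonneg _) (by linarith [pow_pos hγ0 (L + G)])).trans h.hu
  · rw [hs', ← mul_one_sub, abs_mul, abs_of_nonpos (by linarith : 1 - β ^ (L + G) ≤ 0),
      pow_add γ (L + G)]
    refine le_trans ?_ h.hs
    have : -(1 - β ^ (L + G)) * γ ^ (L + G) ≤ 1 := by
      have := hγβ (L + G)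
      nlinarith [pow_pos hγ0 (L + G)]
    calc _ = |s| * γ ^ L * (-(1 - β ^ (L + G)) * γ ^ (L + G)) := by ring
      _ ≤ _ := mul_le_of_le_one_right (by positivity) this
  · rw [hu', ← mul_one_sub, abs_mul, abs_of_nonneg (by linarith : 0 ≤ 1 - γ ^ (L + G)),
      pow_add β (L + G)]
    refine h.hl.trans ?_
    have : 1 ≤ (1 - γ ^ (L + G)) * β ^ (L + G) := by
      have := hγβ (L + G)
      nlinarith
    calc _ ≤ |u| * β ^ L * ((1 - γ ^ (L + G)) * β ^ (L + G)) :=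
          le_mul_of_one_le_right (by positivity) this
      _ = _ := by ring
  · refine three_cases (fun j => κ - 7 * p ≤ ph (u' * β ^ j)) hA1.1 (fun i hi => ?_) hA3.1
    linarith [A2 i hi, mid_pt hβ hτ0 hρ0 hτ hρ hi]
  · refine three_cases (fun j => κ - 7 * p ≤ ph (s' * γ ^ j)) hB1.1 (fun i hi => ?_) hB3.1
    linarith [B2 i hi, mid_pt hβ hτ0 hρ0 hτ hρ hi]
  · have hm := mid_sum hβ G h1 h2
    have hA2 := prod_small G _ e2 A2 hm
    have hB2 := prod_small G _ e2 B2 hm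
    have n1 : 0 ≤ PA β u L := prod_nonneg fun _ _ => ph_nonneg _
    have n2 : 0 ≤ PB β s L := prod_nonneg fun _ _ => ph_nonneg _
    constructor
    · unfold PA
      rw [prod_range_add, prod_range_add]
      calc _ = (PA β u L / 2) * (1 / 2) * (PB β s L / 2) := by unfold PA; ring
        _ ≤ _ := by
          gcongr
          · exact mul_nonneg (prod_nonneg fun _ _ => ph_nonneg _)
              (prod_nonneg fun _ _ => ph_nonneg _)
          · exact prod_nonneg fun _ _ => ph_nonneg _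
          · exact hA1.2
          · exact hA3.2
    · unfold PB
      rw [prod_range_add, prod_range_add]
      calc _ = (PA β u L / 2) * (1 / 2) * (PB β s L / 2) := by unfold PB; ring
        _ ≤ _ := by
          gcongr
          · exact mul_nonneg (prod_nonneg fun _ _ => ph_nonneg _)
              (prod_nonneg fun _ _ => ph_nonneg _)
          · exact prod_nonneg fun _ _ => ph_nonneg _
          · exact hB1.2
          · exact hB3.2

theorem St.ext (hβ : 1 < β) (hω : ‖ω‖ = 1) {u s : ℝ} {c : ℂ} {L : ℕ} {τ κ ρ : ℝ}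
    (h : St β ω u s c L τ κ) (hκ : κ ≤ 1 / 2) (hτ : τ ≤ 1 / 40) (hρ : ρ ≤ 1 / 40)
    (hc : ‖c‖ ≤ ρ) (G : ℕ) :
    St β ω (u * β⁻¹ ^ G) (s * β ^ G) (c * ω⁻¹ ^ G) (G + L + G) (τ * β⁻¹ ^ G) κ ∧
    (τ ^ 2 * (β / (β - 1)) ≤ 1 / 480 → ρ ^ 2 * G ≤ 1 / 960 →
      PA β u L / 4 ≤ PA β (u * β⁻¹ ^ G) (G + L + G)) := by
  have hβ0 : 0 < β := by linarith
  have hω0 : ω ≠ 0 := by rintro rfl; simp at hω
  have hγ : β⁻¹ ≤ 1 := inv_le_one_of_one_le₀ hβ.le
  have hτ0 : 0 ≤ τ := (abs_nonneg _).trans h.hu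
  have hρ0 : 0 ≤ ρ := (norm_nonneg _).trans hc
  set γ := β⁻¹ with hγdef
  have hγ0 : 0 < γ := by positivity
  have hγβ : ∀ k : ℕ, γ ^ k * β ^ k = 1 := fun k => by
    rw [← mul_pow, hγdef, inv_mul_cancel₀ hβ0.ne', one_pow]
  have hsh := h.tr.shift hβ0.ne' hω0 G
  have hcs : ‖c * ω⁻¹ ^ G‖ ≤ ρ := by
    rw [norm_mul, norm_pow, norm_inv, hω]; simpa using hc
  let e2 : ℕ → ℝ := fun i => τ * γ ^ i + 2 * ρ + τ * (γ ^ G * β ^ i)
  have b2 : ∀ i, |u * γ ^ G * β ^ i| ≤ τ * (γ ^ G * β ^ i) := by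
    intro i
    rw [mul_assoc, abs_mul, abs_of_pos (by positivity : 0 < γ ^ G * β ^ i)]
    have := h.hu
    gcongr
  have b3 : ∀ i, |s * γ ^ (L + i)| ≤ τ * γ ^ i := by
    intro i
    rw [abs_mul, abs_of_pos (by positivity : 0 < γ ^ (L + i)), pow_add, ← mul_assoc]
    have := h.hs
    gcongr
  have b5 : ∀ i, u * γ ^ G * β ^ (G + i) = u * β ^ i := by
    intro i
    rw [pow_add β G, mul_assoc, ← mul_assoc (γ ^ _), hγβ, one_mul]
  have b6 : ∀ i, s * β ^ G * γ ^ (G + i) = s * γ ^ i := by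
    intro i
    rw [pow_add γ G, mul_assoc, ← mul_assoc (β ^ _), mul_comm (β ^ _), hγβ, one_mul]
  have A1 : ∀ i < G, 1 - 20 * e2 i ^ 2 ≤ ph (u * γ ^ G * β ^ i) := by
    intro i _
    refine ph_small 0 ?_
    simp only [Int.cast_zero, sub_zero]
    exact (b2 i).trans (le_add_of_nonneg_left (by positivity))
  have A3 : ∀ i < G, 1 - 20 * e2 i ^ 2 ≤ ph (u * γ ^ G * β ^ (G + L + i)) := by
    intro i _
    obtain ⟨n, hn⟩ := h.tr.nat hω hc (L + i)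
    refine ph_small n ?_
    rw [add_assoc, b5, show u * β ^ (L + i) - n = (u * β ^ (L + i) + s * γ ^ (L + i) - n) -
      s * γ ^ (L + i) by ring]
    refine (abs_sub _ _).trans ?_
    have : 0 ≤ τ * (γ ^ G * β ^ i) := by positivity
    simp only [e2]
    linarith [b3 i]
  have B1 : ∀ i < G, 1 - 20 * e2 i ^ 2 ≤ ph (s * β ^ G * γ ^ i) := by
    intro i _
    obtain ⟨n, hn⟩ := hsh.nat hω hcs i
    refine ph_small n ?_
    rw [show s * β ^ G * γ ^ i - n = (u * γ ^ G * β ^ i + s * β ^ G * γ ^ i - n) -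
      u * γ ^ G * β ^ i by ring]
    refine (abs_sub _ _).trans ?_
    have : 0 ≤ τ * γ ^ i := by positivity
    simp only [e2]
    linarith [b2 i]
  have B3 : ∀ i < G, 1 - 20 * e2 i ^ 2 ≤ ph (s * β ^ G * γ ^ (G + L + i)) := by
    intro i _
    refine ph_small 0 ?_
    simp only [Int.cast_zero, sub_zero]
    rw [add_assoc, b6]
    refine (b3 i).trans ?_
    have : 0 ≤ τ * (γ ^ G * β ^ i) := by positivity
    simp only [e2]
    linarith
  refine ⟨⟨hsh, ?_, ?_, ?_, ?_, ?_⟩, fun h1 h2 => ?_⟩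
  · rw [abs_mul, abs_of_pos (by positivity : 0 < γ ^ G)]
    have := h.hu
    gcongr
  · have := b3 G
    rw [← b6, abs_mul, abs_of_pos (by positivity : 0 < γ ^ (G + (L + G))), ← add_assoc] at this
    exact this
  · have h1 : |u * γ ^ G| * β ^ (G + L + G) = |u| * β ^ L * β ^ G := by
      rw [← abs_of_pos (by positivity : 0 < β ^ (G + L + G)), ← abs_mul, add_assoc, b5, abs_mul,
        abs_of_pos (by positivity : 0 < β ^ (L + G)), pow_add, mul_assoc]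
    rw [h1]
    exact h.hl.trans (le_mul_of_one_le_right (by positivity) (one_le_pow₀ hβ.le))
  · refine three_cases (fun j => κ ≤ ph (u * γ ^ G * β ^ j)) (fun i hi => ?_) (fun i hi => ?_)
      (fun i hi => ?_)
    · linarith [A1 i hi, mid_pt hβ hτ0 hρ0 hτ hρ hi]
    · simp only [b5]; exact h.k1 i hi
    · linarith [A3 i hi, mid_pt hβ hτ0 hρ0 hτ hρ hi]
  · refine three_cases (fun j => κ ≤ ph (s * β ^ G * γ ^ j)) (fun i hi => ?_) (fun i hi => ?_)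
      (fun i hi => ?_)
    · linarith [B1 i hi, mid_pt hβ hτ0 hρ0 hτ hρ hi]
    · simp only [b6]; exact h.k2 i hi
    · linarith [B3 i hi, mid_pt hβ hτ0 hρ0 hτ hρ hi]
  · have hm := mid_sum hβ G h1 h2
    have hA1 := prod_small G _ e2 A1 hm
    have hA3 := prod_small G _ e2 A3 hm
    have n1 : 0 ≤ PA β u L := prod_nonneg fun _ _ => ph_nonneg _
    unfold PA
    rw [prod_range_add, prod_range_add]
    simp only [b5]
    calc _ = (1 / 2) * PA β u L * (1 / 2) := by unfold PA; ring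
      _ ≤ _ := by
        unfold PA
        gcongr

end

end Crest.Agent.H0104
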