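import Mathlib
import Crest.Agent.H0104.Rec

set_option autoImplicit false

namespace Crest.Agent.H0104
open Finset Real

section
variable {β : ℝ} {ω : ℂ}

lemma dirichlet (hω : ‖ω‖ = 1) (x : ℝ) (hx : 1 ≤ x) :
    ∃ t : ℕ, 1 ≤ t ∧ (t : ℝ) ≤ x ∧ ‖1 - ω⁻¹ ^ t‖ ≤ 7 / x := by
  have hn : ‖ω⁻¹‖ = 1 := by rw [norm_inv, hω, inv_one]
  have he : ω⁻¹ = Complex.exp (Complex.arg ω⁻¹ * Complex.I) := by
    have := Complex.norm_mul_exp_arg_mul_I ω⁻¹
    rw [hn] at this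
    simpa using this.symm
  set θ := Complex.arg ω⁻¹
  obtain ⟨k, hk0, hk1, hk⟩ := Real.exists_nat_abs_mul_sub_round_le (θ / (2 * π))
    (n := ⌊x⌋₊) (Nat.floor_pos.2 hx)
  refine ⟨k, hk0, (Nat.cast_le.2 hk1).trans (Nat.floor_le (by linarith)), ?_⟩
  set r := round ((k : ℝ) * (θ / (2 * π)))
  have h1 : ω⁻¹ ^ k = Complex.exp (Complex.I * ((2 * π * (k * (θ / (2 * π)) - r) : ℝ) : ℂ)) := by
    rw [he, ← Complex.exp_nat_mul]
    have : (k : ℂ) * (θ * Complex.I) =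
        Complex.I * ((2 * π * (k * (θ / (2 * π)) - r) : ℝ) : ℂ) + r * (2 * π * Complex.I) := by
      have hπ : (π : ℂ) ≠ 0 := by exact_mod_cast Real.pi_ne_zero
      push_cast; field_simp; ring
    rw [this, Complex.exp_add, Complex.exp_int_mul_two_pi_mul_I, mul_one]
  rw [norm_sub_rev, h1]
  refine Real.norm_exp_I_mul_ofReal_sub_one_le.trans ?_
  rw [Real.norm_eq_abs, abs_mul, abs_of_pos (by positivity : 0 < 2 * π)]
  have h2 : 1 / ((⌊x⌋₊ : ℝ) + 1) ≤ 1 / x :=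
    one_div_le_one_div_of_le (by linarith) (Nat.lt_floor_add_one x).le
  calc 2 * π * _ ≤ 7 * (1 / x) := by
        gcongr
        · linarith [Real.pi_lt_d2]
        · exact hk.trans h2
    _ = 7 / x := by ring

lemma one_sub_pow_mul {z : ℂ} (hz : ‖z‖ = 1) (t j : ℕ) :
    ‖1 - z ^ (j * t)‖ ≤ j * ‖1 - z ^ t‖ := by
  induction j with
  | zero => simp
  | succ j ih =>
    have : 1 - z ^ ((j + 1) * t) = (1 - z ^ (j * t)) + z ^ (j * t) * (1 - z ^ t) := by ring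
    rw [this]
    refine (norm_add_le _ _).trans ?_
    rw [norm_mul, norm_pow, hz, one_pow, one_mul]
    push_cast
    linarith

lemma norm_step {c z : ℂ} {ρ r : ℝ} (hc : ‖c‖ ≤ ρ) (hz : ‖1 - z‖ ≤ r) : ‖c - c * z‖ ≤ ρ * r := by
  rw [← mul_one_sub, norm_mul]
  gcongr
  exact (norm_nonneg _).trans hc

lemma exists_pow_small (hβ : 1 < β) {ε : ℝ} (hε : 0 < ε) : ∃ J : ℕ, 1 ≤ J ∧ β⁻¹ ^ J ≤ ε := by
  obtain ⟨J, hJ⟩ := exists_pow_lt_of_lt_one hε (inv_lt_one_of_one_lt₀ hβ)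
  refine ⟨J + 1, by omega, le_trans ?_ hJ.le⟩
  exact pow_le_pow_of_le_one (by positivity) (inv_le_one_of_one_le₀ hβ.le) (by omega)

/-- the first state -/
theorem base0 (hβ : 1 < β) (hω : ‖ω‖ = 1) (htr : Tr β ω 1 1 1) (hi : IsIntegral ℤ β)
    (hi' : IsIntegral ℤ β⁻¹) : ∃ κ : ℝ, 0 < κ ∧ κ ≤ 1 / 8 ∧ ∃ u s c L τ,
      St β ω u s c L τ (4 * κ) ∧ ‖c‖ ≤ 1 / 40 ∧ τ * (β / (β - 1)) ≤ κ / 28 ∧
        β⁻¹ ^ L ≤ 1 / 2 ∧ 1 ≤ L := by
  have hβ0 : 0 < β := by linarith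
  have hω0 : ω ≠ 0 := by rintro rfl; simp at hω
  obtain ⟨t, ht1, -, ht⟩ := dirichlet hω 280 (by norm_num)
  have h1 := htr.sub (htr.shift hβ0.ne' hω0 t)
  simp only [one_mul] at h1
  set u := 1 - β⁻¹ ^ t with hu
  set s := 1 - β ^ t with hs
  have hu0 : 0 < u := by
    have : β⁻¹ ^ t < 1 := pow_lt_one₀ (by positivity) (inv_lt_one_of_one_lt₀ hβ) (by omega)
    linarith
  have hui : IsIntegral ℤ u := isIntegral_one.sub (hi'.pow t)
  have hsi : IsIntegral ℤ s := isIntegral_one.sub (hi.pow t)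
  obtain ⟨J, hJ1, hJ⟩ := exists_pow_small hβ (ε := min u (1 / (40 * (|u| + |s|)))) (by positivity)
  have hJa : β⁻¹ ^ J ≤ u := hJ.trans (min_le_left _ _)
  have hJb : β⁻¹ ^ J * (40 * (|u| + |s|)) ≤ 1 := by
    have := hJ.trans (min_le_right _ _)
    rwa [le_div_iff₀ (by positivity)] at this
  have hγβ : ∀ k : ℕ, β⁻¹ ^ k * β ^ k = 1 := fun k => by
    rw [← mul_pow, inv_mul_cancel₀ hβ0.ne', one_pow]
  have hpos : ∀ y : ℝ, IsIntegral ℤ y → 0 < ph y := fun y hy =>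
    abs_pos.2 (cos_ne_zero_of_integral hy)
  obtain ⟨κ₁, hκ₁, hκ₁', hk⟩ : ∃ κ₁ : ℝ, 0 < κ₁ ∧ κ₁ ≤ 1 / 2 ∧ ∀ j < J + J,
      κ₁ ≤ ph (u * β⁻¹ ^ J * β ^ j) ∧ κ₁ ≤ ph (s * β ^ J * β⁻¹ ^ j) := by
    generalize J + J = n
    induction n with
    | zero => exact ⟨1 / 2, by norm_num, le_rfl, by simp⟩
    | succ n ih =>
      obtain ⟨k, h0, h1, h2⟩ := ih
      have e1 := hpos _ ((hui.mul (hi'.pow J)).mul (hi.pow n))
      have e2 := hpos _ ((hsi.mul (hi.pow J)).mul (hi'.pow n))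
      refine ⟨min k (min (ph (u * β⁻¹ ^ J * β ^ n)) (ph (s * β ^ J * β⁻¹ ^ n))),
        lt_min h0 (lt_min e1 e2), (min_le_left _ _).trans h1, fun j hj => ?_⟩
      rcases Nat.lt_succ_iff_lt_or_eq.1 hj with hj | rfl
      · exact ⟨(min_le_left _ _).trans (h2 j hj).1, (min_le_left _ _).trans (h2 j hj).2⟩
      · exact ⟨(min_le_right _ _).trans (min_le_left _ _),
          (min_le_right _ _).trans (min_le_right _ _)⟩
  have hc : ‖(1 - ω⁻¹ ^ t) * ω⁻¹ ^ J‖ ≤ 1 / 40 := by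
    rw [norm_mul, norm_pow, norm_inv, hω]
    simp only [inv_one, one_pow, mul_one]
    linarith
  have hst : St β ω (u * β⁻¹ ^ J) (s * β ^ J) ((1 - ω⁻¹ ^ t) * ω⁻¹ ^ J) (J + J) (1 / 40) κ₁ := by
    have p1 : 0 < β⁻¹ ^ J := by positivity
    refine ⟨h1.shift hβ0.ne' hω0 J, ?_, ?_, ?_, fun j hj => (hk j hj).1, fun j hj => (hk j hj).2⟩
    · rw [abs_mul, abs_of_pos p1]; nlinarith [abs_nonneg s, abs_nonneg u]
    · rw [abs_mul, abs_of_pos (by positivity : 0 < β ^ J), pow_add, mul_assoc, ← mul_assoc (β ^ J),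
        mul_comm (β ^ J), hγβ, one_mul]
      nlinarith [abs_nonneg s, abs_nonneg u]
    · rw [abs_mul, abs_of_pos p1, pow_add, mul_assoc, ← mul_assoc (β⁻¹ ^ J), hγβ, one_mul,
        abs_of_pos hu0, ← hγβ J]
      gcongr
  have hΓ : 0 < β / (β - 1) := div_pos hβ0 (by linarith)
  obtain ⟨G, hG1, hG⟩ := exists_pow_small hβ (ε := min (1 / 2) (κ₁ / 4 / 28 / (β / (β - 1))))
    (by positivity)
  have hfin := (hst.ext hβ hω hκ₁' le_rfl le_rfl hc G).1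
  rw [show κ₁ = 4 * (κ₁ / 4) by ring] at hfin
  refine ⟨κ₁ / 4, by positivity, by linarith, _, _, _, _, _, hfin, ?_, ?_, ?_, ?_⟩
  · rw [norm_mul, norm_pow, norm_inv, hω]
    simpa using hc
  · have := hG.trans (min_le_right _ _)
    rw [le_div_iff₀ hΓ] at this
    have p1 : 0 < β⁻¹ ^ G * (β / (β - 1)) := by positivity
    linarith
  · refine le_trans ?_ (hG.trans (min_le_left _ _))
    exact pow_le_pow_of_le_one (by positivity) (inv_le_one_of_one_le₀ hβ.le) (by omega)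
  · omega

lemma le_exp_mul {z a C : ℝ} (h : C ≤ a * z) : C ≤ exp (a * z) := by
  linarith [Real.add_one_le_exp (a * z)]

lemma mul_exp_le {z a b C : ℝ} (h : C ≤ (b - a) * z) : C * exp (a * z) ≤ exp (b * z) := by
  rw [show b * z = (b - a) * z + a * z by ring, exp_add]
  gcongr
  exact le_exp_mul h

lemma gam_ge (hβ : 1 < β) : 1 ≤ β / (β - 1) := by
  rw [le_div_iff₀ (by linarith)]; linarith

/-- the invariant of the recursion -/
def Inv (β : ℝ) (ω : ℂ) (κ τ lam : ℝ) (i : ℕ) : Prop :=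
  ∃ (u s : ℝ) (c : ℂ) (L : ℕ) (z y : ℝ), St β ω u s c L τ (κ * (1 + (1 / 2) ^ i)) ∧
    ‖c‖ ≤ exp (-10 * z) ∧ (L : ℝ) ≤ exp (7 * z) ∧ 8 * exp (-y) ≤ PA β u L ∧
    8 * exp (-y) ≤ PB β s L ∧ lam * (21 / 20) ^ i * y ≤ z ∧ lam * (21 / 20) ^ i * y ≤ L ∧
    1000 ≤ z ∧ 1 ≤ y ∧ β⁻¹ ^ L ≤ (1 / 2) ^ (i + 1) ∧ exp (-3 * z) ≤ κ * (1 / 2) ^ i / 112

theorem base1 (hβ : 1 < β) (hω : ‖ω‖ = 1) (htr : Tr β ω 1 1 1) (hi : IsIntegral ℤ β)
    (hi' : IsIntegral ℤ β⁻¹) : ∃ κ τ lam : ℝ, 0 < κ ∧ κ ≤ 1 / 8 ∧ 0 < lam ∧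
      τ * (β / (β - 1)) ≤ κ / 28 ∧ Inv β ω κ τ lam 0 := by
  obtain ⟨κ, hκ0, hκ, u, s, c, L, τ, hst, hc, hτ, hL, hL1⟩ := base0 hβ hω htr hi hi'
  have hβ0 : 0 < β := by linarith
  have hΓ := gam_ge hβ
  have hτ0 : 0 ≤ τ := (abs_nonneg _).trans hst.hu
  have hτ1 : τ ≤ 1 / 40 := by nlinarith
  have hγ : β⁻¹ ≤ 1 := inv_le_one_of_one_le₀ hβ.le
  have hL1' : (1 : ℝ) ≤ L := by exact_mod_cast hL1
  set z : ℝ := 1000000 * L ^ 3 / κ with hz
  have hL3 : (L : ℝ) ≤ L ^ 2 := by nlinarith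
  have hL4 : (L : ℝ) ^ 2 ≤ L ^ 3 := by nlinarith
  have hzκ : z * κ = 1000000 * L ^ 3 := by rw [hz]; field_simp
  have hz0 : 0 < z := by positivity
  have hz1 : 1000000 * (L : ℝ) ^ 3 ≤ z := by nlinarith
  have hz2 : 1000 ≤ z := by nlinarith
  set x := exp (6 * z) with hx
  have hxz : z ≤ x := le_exp_mul (by linarith)
  have hx0 : 0 < x := exp_pos _
  obtain ⟨t, ht1, htx, ht⟩ := dirichlet hω x (by linarith)
  have hn : ‖ω⁻¹‖ = 1 := by rw [norm_inv, hω, inv_one]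
  have ht1' : (1 : ℝ) ≤ t := by exact_mod_cast ht1
  have hpw : ∀ j : ℕ, ‖1 - ω⁻¹ ^ (j * t)‖ ≤ j * (7 / x) := fun j =>
    (one_sub_pow_mul hn t j).trans (by gcongr)
  have hτγ : ∀ n : ℕ, τ * (β / (β - 1)) * β⁻¹ ^ n ≤ κ / 28 := fun n =>
    (mul_le_of_le_one_right (by positivity) (pow_le_one₀ (by positivity) hγ)).trans hτ
  have hxκ : 1000000 * (L : ℝ) ^ 3 ≤ x * κ := by rw [← hzκ]; gcongr
  -- first step
  obtain ⟨G₁, hG₁⟩ : ∃ G, 2 * L * t = L + G := ⟨2 * L * t - L, by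
    have : L ≤ 2 * L * t := by nlinarith
    omega⟩
  have hG₁' : L ≤ G₁ := by nlinarith
  have hc₁ : ‖c - c * ω⁻¹ ^ (L + G₁)‖ ≤ L / x := by
    refine (norm_step hc (hG₁ ▸ hpw (2 * L))).trans ?_
    push_cast
    rw [mul_div_assoc', mul_div_assoc']
    gcongr
    linarith
  have hs₁ := (hst.step hβ hω (by positivity) (by linarith) hτ1 le_rfl hc hL G₁ hG₁' hc₁
    (p := κ / 7) (by
      have : 2 * (L / x) * L ≤ κ / 28 := by
        rw [mul_div_assoc', div_mul_eq_mul_div, div_le_iff₀ hx0]; nlinarith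
      linarith [hτγ L]) (by linarith)).1
  rw [show 4 * κ - 7 * (κ / 7) = 3 * κ by ring] at hs₁
  set L₁ := L + G₁ + L with hL₁
  have hL₁' : L₁ ≤ 3 * L * t := by nlinarith
  have hL₁'' : (L₁ : ℝ) ≤ 3 * L * x := by
    have : (L₁ : ℝ) ≤ 3 * L * t := by exact_mod_cast hL₁'
    exact this.trans (by gcongr)
  obtain ⟨G₂, hG₂⟩ : ∃ G, 6 * L * t = L₁ + G := ⟨6 * L * t - L₁, by
    have : L₁ ≤ 6 * L * t := by nlinarith
    omega⟩
  have hG₂' : L₁ ≤ G₂ := by nlinarith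
  have hc₂ := norm_step hc₁ (hG₂ ▸ hpw (6 * L))
  have hLx : L / x ≤ 1 / 40 := by
    rw [div_le_iff₀ hx0]; nlinarith
  have hγL₁ : β⁻¹ ^ L₁ ≤ 1 / 2 :=
    (pow_le_pow_of_le_one (by positivity) hγ (by omega)).trans hL
  have hs₂ := (hs₁.step hβ hω (by positivity) (by linarith) hτ1 hLx hc₁ hγL₁ G₂ hG₂' hc₂
    (p := κ / 7) (by
      have : 2 * (L / x * (((6 * L : ℕ) : ℝ) * (7 / x))) * L₁ ≤ κ / 28 := by
        calc _ ≤ 2 * (L / x * (((6 * L : ℕ) : ℝ) * (7 / x))) * (3 * L * x) := by gcongr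
          _ = 252 * L ^ 3 / x := by push_cast; field_simp; ring
          _ ≤ κ / 28 := by rw [div_le_iff₀ hx0]; nlinarith
      linarith [hτγ L₁]) (by linarith)).1
  rw [show 3 * κ - 7 * (κ / 7) = κ * (1 + (1 / 2) ^ 0) by ring] at hs₂
  set L₂ := L₁ + G₂ + L₁ with hL₂
  have hL₂' : (L₂ : ℝ) ≤ 9 * L * x := by
    have h1 : L₂ ≤ 9 * L * t := by nlinarith
    have : (L₂ : ℝ) ≤ 9 * L * t := by exact_mod_cast h1
    exact this.trans (by gcongr)
  have hL₂1 : (1 : ℝ) ≤ L₂ := by exact_mod_cast (show 1 ≤ L₂ by omega)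
  set u₂ := u - u * β⁻¹ ^ (L + G₁) - (u - u * β⁻¹ ^ (L + G₁)) * β⁻¹ ^ (L₁ + G₂)
  set s₂ := s - s * β ^ (L + G₁) - (s - s * β ^ (L + G₁)) * β ^ (L₁ + G₂)
  have hPA : 0 < PA β u₂ L₂ := prod_pos fun j hj =>
    lt_of_lt_of_le (by positivity) (hs₂.k1 j (mem_range.1 hj))
  have hPB : 0 < PB β s₂ L₂ := prod_pos fun j hj =>
    lt_of_lt_of_le (by positivity) (hs₂.k2 j (mem_range.1 hj))
  set m := min (PA β u₂ L₂) (PB β s₂ L₂) with hm
  have hm0 : 0 < m := lt_min hPA hPB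
  set y := 1 + 8 / m with hy
  have hy1 : 1 ≤ y := by rw [hy]; linarith [div_pos (by norm_num : (0 : ℝ) < 8) hm0]
  have hym : 8 * exp (-y) ≤ m := by
    have h1 : 8 / m ≤ exp y := by linarith [Real.add_one_le_exp y]
    rw [div_le_iff₀ hm0] at h1
    rw [exp_neg, ← div_eq_mul_inv, div_le_iff₀ (exp_pos _)]
    linarith
  refine ⟨κ, τ, 1 / y, hκ0, hκ, by positivity, hτ, u₂, s₂, _, L₂, z, y, hs₂, hc₂.trans ?_,
    hL₂'.trans ?_, hym.trans (min_le_left _ _), hym.trans (min_le_right _ _), ?_, ?_, hz2, hy1,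
    ?_, ?_⟩
  · have h1 : L / x * (((6 * L : ℕ) : ℝ) * (7 / x)) = 42 * L ^ 2 * exp (-12 * z) := by
      rw [show -12 * z = -(6 * z) + -(6 * z) by ring, exp_add, exp_neg, ← hx]
      push_cast; field_simp; ring
    rw [h1]
    exact mul_exp_le (by linarith)
  · exact mul_exp_le (by linarith)
  · rw [pow_zero, mul_one, one_div_mul_cancel (by linarith)]; linarith
  · rw [pow_zero, mul_one, one_div_mul_cancel (by linarith)]; linarith
  · rw [zero_add, pow_one]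
    exact (pow_le_pow_of_le_one (by positivity) hγ (by omega)).trans hL
  · rw [pow_zero, mul_one, show -3 * z = -(3 * z) by ring, exp_neg, inv_le_comm₀ (exp_pos _)
      (by positivity), inv_div]
    refine le_exp_mul ?_
    rw [div_le_iff₀ hκ0]; nlinarith

theorem inv_step (hβ : 1 < β) (hω : ‖ω‖ = 1) {κ τ lam : ℝ} (hκ0 : 0 < κ) (hκ : κ ≤ 1 / 8)
    (hτ : τ * (β / (β - 1)) ≤ κ / 28) {i : ℕ} (h : Inv β ω κ τ lam i) :
    Inv β ω κ τ lam (i + 1) := by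
  obtain ⟨u, s, c, L, z, y, hst, hc, hL, hA, hB, hz1, hz2, hz, hy, hγL, hez⟩ := h
  have hβ0 : 0 < β := by linarith
  have hΓ := gam_ge hβ
  have hτ0 : 0 ≤ τ := (abs_nonneg _).trans hst.hu
  have hτ1 : τ ≤ 1 / 40 := by nlinarith
  have hτ2 : τ ^ 2 * (β / (β - 1)) ≤ 1 / 480 := by nlinarith
  have hγ : β⁻¹ ≤ 1 := inv_le_one_of_one_le₀ hβ.le
  have hn : ‖ω⁻¹‖ = 1 := by rw [norm_inv, hω, inv_one]
  set w : ℝ := (1 / 2) ^ i with hw
  have hw0 : 0 < w := by positivity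
  have hw1 : w ≤ 1 := pow_le_one₀ (by norm_num) (by norm_num)
  have hγL' : β⁻¹ ^ L ≤ w / 2 := by rw [pow_succ] at hγL; linarith
  have hexp : ∀ a b : ℝ, exp (a * z) * exp (b * z) = exp ((a + b) * z) := fun a b => by
    rw [← exp_add]; congr 1; ring
  obtain ⟨t, ht1, htx, ht⟩ := dirichlet hω (exp (19 * z)) (by
    linarith [Real.add_one_le_exp (19 * z)])
  have ht' : ‖1 - ω⁻¹ ^ t‖ ≤ 7 * exp (-19 * z) := by
    rwa [show -19 * z = -(19 * z) by ring, exp_neg, ← div_eq_mul_inv]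
  obtain ⟨T, z', hT1, hT2, hT3, hT4, hT5⟩ : ∃ (T : ℕ) (z' : ℝ), 2 * L ≤ T ∧ 21 / 10 * z ≤ z' ∧
      exp (-10 * z) * ‖1 - ω⁻¹ ^ T‖ ≤ exp (-10 * z') ∧ (L : ℝ) + T ≤ exp (7 * z') ∧
      (T : ℝ) ≤ exp (19 * z) := by
    rcases le_or_gt (2 * L) t with h | h
    · refine ⟨t, 28 / 10 * z, h, by linarith, ?_, ?_, htx⟩
      · calc _ ≤ exp (-10 * z) * (7 * exp (-19 * z)) := by gcongr
          _ = 7 * exp (-29 * z) := by rw [mul_left_comm, hexp]; norm_num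
          _ ≤ exp (-28 * z) := mul_exp_le (by linarith)
          _ = _ := by congr 1; ring
      · have : (2 * L : ℝ) ≤ t := by exact_mod_cast h
        calc _ ≤ 2 * exp (19 * z) := by linarith [Nat.cast_nonneg (α := ℝ) L]
          _ ≤ exp (196 / 10 * z) := mul_exp_le (by linarith)
          _ = _ := by congr 1; ring
    · have h' : (t : ℝ) ≤ 2 * L := by exact_mod_cast h.le
      have hL2 : (L : ℝ) * L ≤ exp (14 * z) := by
        calc _ ≤ exp (7 * z) * exp (7 * z) := by gcongr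
          _ = _ := by rw [hexp]; norm_num
      have hT : ((2 * L * t : ℕ) : ℝ) ≤ 4 * exp (14 * z) := by
        push_cast
        have : (2 * L * t : ℝ) ≤ 2 * L * (2 * L) := by gcongr
        linarith
      refine ⟨2 * L * t, 21 / 10 * z, by nlinarith, le_rfl, ?_, ?_, hT.trans ?_⟩
      · have h1 := one_sub_pow_mul hn t (2 * L)
        push_cast at h1
        calc _ ≤ exp (-10 * z) * (2 * exp (7 * z) * (7 * exp (-19 * z))) := by
              gcongr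
              exact h1.trans (by gcongr)
          _ = 14 * (exp (-10 * z) * exp (7 * z) * exp (-19 * z)) := by ring
          _ = 14 * exp (-22 * z) := by rw [hexp, hexp]; norm_num
          _ ≤ exp (-21 * z) := mul_exp_le (by linarith)
          _ = _ := by congr 1; ring
      · have : exp (7 * z) ≤ exp (14 * z) := exp_le_exp.2 (by linarith)
        calc _ ≤ 5 * exp (14 * z) := by linarith
          _ ≤ exp (147 / 10 * z) := mul_exp_le (by linarith)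
          _ = _ := by congr 1; ring
      · exact mul_exp_le (by linarith)
  obtain ⟨G, rfl⟩ : ∃ G, T = L + G := ⟨T - L, by omega⟩
  have hG : L ≤ G := by omega
  have hc' : ‖c - c * ω⁻¹ ^ (L + G)‖ ≤ exp (-10 * z') := (norm_step hc le_rfl).trans hT3
  have hρ : exp (-10 * z) ≤ 1 / 40 := by
    have := mul_exp_le (z := z) (a := -10) (b := 0) (C := 40) (by linarith)
    rw [zero_mul, exp_zero] at this
    linarith
  have hp : τ * (β / (β - 1)) * β⁻¹ ^ L + 2 * exp (-10 * z') * L ≤ κ * w / 14 := by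
    have h1 : τ * (β / (β - 1)) * β⁻¹ ^ L ≤ κ / 28 * (w / 2) := by gcongr
    have h2 : exp (-10 * z') * L ≤ exp (-3 * z) := by
      calc _ ≤ exp (-10 * z) * exp (7 * z) :=
            mul_le_mul (exp_le_exp.2 (by linarith)) hL (by positivity) (by positivity)
        _ = _ := by rw [hexp]; norm_num
    have : 0 < κ * w := by positivity
    linarith
  obtain ⟨hst', hP⟩ := hst.step hβ hω (by positivity) (by nlinarith) hτ1 hρ hc (by linarith) G hG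
    hc' hp (by nlinarith)
  have hG' : exp (-10 * z) ^ 2 * G ≤ 1 / 960 := by
    have h1 : (G : ℝ) ≤ exp (19 * z) := le_trans (by exact_mod_cast Nat.le_add_left G L) hT5
    have h2 := mul_exp_le (z := z) (a := -1) (b := 0) (C := 960) (by linarith)
    rw [zero_mul, exp_zero] at h2
    calc _ ≤ exp (-10 * z) ^ 2 * exp (19 * z) := by gcongr
      _ = exp (-1 * z) := by rw [sq, hexp, hexp]; norm_num
      _ ≤ _ := by linarith
  obtain ⟨hPA, hPB⟩ := hP hτ2 hG'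
  have hyy : 8 * exp (-(2 * y)) ≤ PA β u L * PB β s L / 8 := by
    have : 8 * exp (-y) * (8 * exp (-y)) ≤ PA β u L * PB β s L := by
      gcongr
      exact le_trans (by positivity) hA
    rw [show -(2 * y) = -y + -y by ring, exp_add]
    linarith
  have hlam : lam * (21 / 20) ^ (i + 1) * (2 * y) = 21 / 10 * (lam * (21 / 20) ^ i * y) := by
    ring
  refine ⟨_, _, _, L + G + L, z', 2 * y, ?_, hc', ?_, hyy.trans hPA, hyy.trans hPB, ?_, ?_,
    by linarith, by linarith, ?_, ?_⟩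
  · rw [show κ * (1 + (1 / 2) ^ (i + 1)) = κ * (1 + w) - 7 * (κ * w / 14) by
      rw [pow_succ, ← hw]; ring]
    exact hst'
  · push_cast at hT4 ⊢; linarith
  · rw [hlam]; linarith
  · rw [hlam]
    have : (L : ℝ) ≤ G := by exact_mod_cast hG
    push_cast
    linarith [Nat.cast_nonneg (α := ℝ) L]
  · calc β⁻¹ ^ (L + G + L) ≤ β⁻¹ ^ (L + L) :=
          pow_le_pow_of_le_one (by positivity) hγ (by omega)
      _ = β⁻¹ ^ L * β⁻¹ ^ L := pow_add _ _ _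
      _ ≤ (1 / 2) ^ (i + 1) * (1 / 2) := by gcongr; linarith
      _ = _ := by ring
  · have h1 : exp (-3 * z') ≤ exp (-4 * z) := exp_le_exp.2 (by linarith)
    have h2 := mul_exp_le (z := z) (a := -4) (b := -3) (C := 2) (by linarith)
    rw [pow_succ, ← hw]
    linarith

theorem key (hβ : 1 < β) (hω : ‖ω‖ = 1) (htr : Tr β ω 1 1 1) (hi : IsIntegral ℤ β)
    (hi' : IsIntegral ℤ β⁻¹) (H : ℝ) (hH : 1 ≤ H) :
    ∃ (u s : ℝ) (c : ℂ) (L K : ℕ) (δ : ℝ), Tr β ω u s c ∧ 0 < δ ∧ δ ≤ PA β u L ∧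
      1 ≤ |u| * β ^ L ∧ β⁻¹ ^ L ≤ 1 / 2 ∧ H ≤ K * δ ^ 2 ∧
      7 * (β / (β - 1) * |u| + β / (β - 1) * (|s| * β⁻¹ ^ L) + 2 * ‖c‖ * (2 * K * L)) ≤ δ / 4 := by
  obtain ⟨κ, τ, lam, hκ0, hκ, hlam, hτ, h0⟩ := base1 hβ hω htr hi hi'
  have hall : ∀ i, Inv β ω κ τ lam i := fun i => by
    induction i with
    | zero => exact h0
    | succ i ih => exact inv_step hβ hω hκ0 hκ hτ ih
  have hβ0 : 0 < β := by linarith
  have hlog : 0 < Real.log β := Real.log_pos hβ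
  obtain ⟨i, hi⟩ := pow_unbounded_of_one_lt ((1 + 56 * H + 1 / Real.log β) / lam)
    (by norm_num : (1 : ℝ) < 21 / 20)
  rw [div_lt_iff₀ hlam] at hi
  obtain ⟨u, s, c, L, z, y, hst, hc, hL, hA, hB, hz1, hz2, hz, hy, hγL, hez⟩ := hall i
  have hΓ := gam_ge hβ
  have hτ0 : 0 ≤ τ := (abs_nonneg _).trans hst.hu
  have hτ1 : τ ≤ 1 / 40 := by nlinarith
  have hτ2 : τ ^ 2 * (β / (β - 1)) ≤ 1 / 480 := by nlinarith
  have hγ : β⁻¹ ≤ 1 := inv_le_one_of_one_le₀ hβ.le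
  have hw1 : (1 / 2 : ℝ) ^ i ≤ 1 := pow_le_one₀ (by norm_num) (by norm_num)
  have hexp : ∀ a b : ℝ, exp (a * z) * exp (b * z) = exp ((a + b) * z) := fun a b => by
    rw [← exp_add]; congr 1; ring
  have hρ : exp (-10 * z) ≤ 1 / 40 := by
    have := mul_exp_le (z := z) (a := -10) (b := 0) (C := 40) (by linarith)
    rw [zero_mul, exp_zero] at this
    linarith
  obtain ⟨hst', hP⟩ := hst.ext hβ hω (by nlinarith) hτ1 hρ hc L
  have hG' : exp (-10 * z) ^ 2 * L ≤ 1 / 960 := by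
    have h2 := mul_exp_le (z := z) (a := -13) (b := 0) (C := 960) (by linarith)
    rw [zero_mul, exp_zero] at h2
    calc _ ≤ exp (-10 * z) ^ 2 * exp (7 * z) := by gcongr
      _ = exp (-13 * z) := by rw [sq, hexp, hexp]; norm_num
      _ ≤ _ := by linarith
  have hPA := hP hτ2 hG'
  set Λ := lam * (21 / 20) ^ i with hΛ
  have hΛ1 : 1 + 56 * H + 1 / Real.log β ≤ Λ := by rw [hΛ]; linarith
  have hil : 0 < 1 / Real.log β := by positivity
  set a := exp (-y) with ha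
  have ha0 : 0 < a := exp_pos _
  have ha1 : a ≤ 1 / 2 := by
    have h1 : 2 ≤ exp y := by linarith [Real.add_one_le_exp y]
    rw [ha, exp_neg, inv_le_comm₀ (exp_pos _) (by norm_num)]
    simpa using h1
  have hγa : β⁻¹ ^ L ≤ a := by
    have h1 : β⁻¹ ^ L = exp (-(L * Real.log β)) := by
      rw [exp_neg, exp_nat_mul, exp_log hβ0, inv_pow]
    rw [h1, ha, exp_le_exp, neg_le_neg_iff]
    have h2 : 1 / Real.log β * y ≤ L := le_trans (by gcongr; linarith) hz2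
    rw [one_div_mul_eq_div, div_le_iff₀ hlog] at h2
    exact h2
  have hza : 168 * H * exp (-3 * z) ≤ a ^ 3 := by
    have h1 : a ^ 3 = exp (-3 * y) := by rw [ha, ← exp_nat_mul]; congr 1; push_cast; ring
    have h2 : (1 + 56 * H) * y ≤ z := le_trans (by gcongr; linarith) hz1
    have h3 : 168 * H ≤ exp (3 * (z - y)) := le_exp_mul (by nlinarith)
    rw [h1, show -3 * y = 3 * (z - y) + -3 * z by ring, exp_add]
    gcongr
  set K := ⌈H / (2 * a) ^ 2⌉₊ with hK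
  have hK1 : H / (2 * a) ^ 2 ≤ K := Nat.le_ceil _
  have hK2 : (K : ℝ) ≤ 2 * H / (2 * a) ^ 2 := by
    have h1 : (K : ℝ) ≤ H / (2 * a) ^ 2 + 1 := (Nat.ceil_lt_add_one (by positivity)).le
    have h2 : 1 ≤ H / (2 * a) ^ 2 := by
      rw [le_div_iff₀ (by positivity)]; nlinarith
    rw [mul_div_assoc]; linarith
  refine ⟨_, _, _, L + L + L, K, 2 * a, hst'.tr, by positivity, by linarith, hst'.hl, ?_, ?_, ?_⟩
  · have : β⁻¹ ^ (L + L + L) ≤ β⁻¹ ^ L := pow_le_pow_of_le_one (by positivity) hγ (by omega)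
    linarith
  · rwa [div_le_iff₀ (by positivity)] at hK1
  · have e1 := hst'.hu
    have e2 := hst'.hs
    have e3 : β / (β - 1) * (τ * β⁻¹ ^ L) ≤ a / 224 := by
      calc _ = τ * (β / (β - 1)) * β⁻¹ ^ L := by ring
        _ ≤ (1 / 224) * a := by gcongr; linarith
        _ = _ := by ring
    have e4 : ‖c * ω⁻¹ ^ L‖ ≤ exp (-10 * z) := by
      rw [norm_mul, norm_pow, norm_inv, hω]; simpa using hc
    have e5 : 2 * ‖c * ω⁻¹ ^ L‖ * (2 * K * ((L + L + L : ℕ) : ℝ)) ≤ a / 28 := by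
      calc _ ≤ 2 * exp (-10 * z) * (2 * (2 * H / (2 * a) ^ 2) * (3 * exp (7 * z))) := by
            gcongr
            push_cast; linarith
        _ = 6 * H * (exp (-10 * z) * exp (7 * z)) / a ^ 2 := by field_simp; ring
        _ = 6 * H * exp (-3 * z) / a ^ 2 := by rw [hexp]; norm_num
        _ ≤ a / 28 := by rw [div_le_iff₀ (by positivity)]; nlinarith
    have e6 := mul_le_mul_of_nonneg_left e1 (by linarith : 0 ≤ β / (β - 1))
    have e7 := mul_le_mul_of_nonneg_left e2 (by linarith : 0 ≤ β / (β - 1))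
    linarith

end

end Crest.Agent.H0104
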