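import Mathlib
import Crest.Agent.H0104.Iter

set_option autoImplicit false

namespace Crest.Agent.H0104
open Finset Real MeasureTheory Crest.AnalysisR Filter

instance : IsProbabilityMeasure fairCoin :=
  ⟨by simp [fairCoin, ENNReal.inv_two_add_inv_two]⟩

/-- the coin-tossing measure -/
noncomputable abbrev coin : Measure (ℕ → Bool) := Measure.infinitePi (fun _ : ℕ => fairCoin)

/-- sign -/
def sg (b : Bool) : ℝ := if b then 1 else -1

lemma abs_sg (b : Bool) : |sg b| = 1 := by cases b <;> simp [sg]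

lemma integral_fairCoin (f : Bool → ℂ) : ∫ b, f b ∂fairCoin = (f true + f false) / 2 := by
  rw [integral_fintype (Integrable.of_finite)]
  simp [fairCoin, Measure.real]
  ring

lemma meas_lin (A : Finset ℕ) (a : ℕ → ℝ) :
    Measurable fun ε : ℕ → Bool => ∑ k ∈ A, a k * sg (ε k) :=
  Finset.measurable_sum _ fun k _ =>
    ((measurable_of_finite sg).comp (measurable_pi_apply k)).const_mul _

lemma integral_cos_lin (A : Finset ℕ) (a : ℕ → ℝ) :
    ∫ ε, cos (∑ k ∈ A, a k * sg (ε k)) ∂coin = ∏ k ∈ A, cos (a k) := by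
  have h1 : ∫ ε, Complex.exp (((∑ k ∈ A, a k * sg (ε k) : ℝ) : ℂ) * Complex.I) ∂coin =
      ((∏ k ∈ A, cos (a k) : ℝ) : ℂ) := by
    have h2 := integral_restrict_infinitePi (fun _ : ℕ => fairCoin) (s := A)
      (f := fun y : (Π _ : A, Bool) =>
        ∏ k : A, Complex.exp (((a k * sg (y k) : ℝ) : ℂ) * Complex.I))
      (measurable_of_finite _).aestronglyMeasurable
    rw [integral_fintype_prod_eq_prod
      (f := fun (k : A) (b : Bool) => Complex.exp (((a k * sg b : ℝ) : ℂ) * Complex.I))] at h2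
    have h3 : ∀ k : A, ∫ b, Complex.exp (((a k * sg b : ℝ) : ℂ) * Complex.I) ∂fairCoin =
        ((cos (a k) : ℝ) : ℂ) := by
      intro k
      rw [integral_fairCoin, Complex.ofReal_cos, Complex.cos]
      simp [sg]
    simp only [h3] at h2
    rw [Complex.ofReal_prod, ← Finset.prod_coe_sort A, ← h2]
    congr 1
    funext ε
    rw [← Complex.exp_sum, ← Finset.sum_mul, ← Complex.ofReal_sum, ← Finset.sum_coe_sort A]
    rfl
  have hi : Integrable (fun ε : ℕ → Bool =>
      Complex.exp (((∑ k ∈ A, a k * sg (ε k) : ℝ) : ℂ) * Complex.I)) coin := by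
    refine Integrable.of_bound ?_ 1 (Eventually.of_forall fun ε => ?_)
    · exact (Complex.measurable_exp.comp
        ((Complex.measurable_ofReal.comp (meas_lin A a)).mul_const _)).aestronglyMeasurable
    · rw [Complex.norm_exp_ofReal_mul_I]
  have h4 := integral_re hi
  rw [h1] at h4
  simpa only [RCLike.re_to_complex, Complex.exp_ofReal_mul_I_re, Complex.ofReal_re] using h4

lemma integrable_bd {f : (ℕ → Bool) → ℝ} (hf : Measurable f) (C : ℝ) (h : ∀ ε, |f ε| ≤ C) :
    Integrable f coin :=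
  Integrable.of_bound hf.aestronglyMeasurable C (Eventually.of_forall h)

lemma integral_cos_mul (A B : Finset ℕ) (hAB : Disjoint A B) (a : ℕ → ℝ) :
    ∫ ε, cos (∑ k ∈ A, a k * sg (ε k)) * cos (∑ k ∈ B, a k * sg (ε k)) ∂coin =
      (∏ k ∈ A, cos (a k)) * ∏ k ∈ B, cos (a k) := by
  classical
  let a' : ℕ → ℝ := fun k => if k ∈ A then a k else -a k
  have h1 := integral_cos_lin (A ∪ B) a
  have h2 := integral_cos_lin (A ∪ B) a'
  have hB : ∀ k ∈ B, a' k = -a k := fun k hk => if_neg (Finset.disjoint_right.1 hAB hk)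
  have hA : ∀ k ∈ A, a' k = a k := fun k hk => if_pos hk
  simp only [Finset.sum_union hAB, Finset.prod_union hAB] at h1 h2
  have e1 : ∏ k ∈ A, cos (a' k) = ∏ k ∈ A, cos (a k) := prod_congr rfl fun k hk => by rw [hA k hk]
  have e2 : ∏ k ∈ B, cos (a' k) = ∏ k ∈ B, cos (a k) :=
    prod_congr rfl fun k hk => by rw [hB k hk, cos_neg]
  have e3 : ∀ ε : ℕ → Bool, ∑ k ∈ A, a' k * sg (ε k) = ∑ k ∈ A, a k * sg (ε k) := fun ε =>
    sum_congr rfl fun k hk => by rw [hA k hk]
  have e4 : ∀ ε : ℕ → Bool, ∑ k ∈ B, a' k * sg (ε k) = -∑ k ∈ B, a k * sg (ε k) := fun ε => by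
    rw [← sum_neg_distrib]
    exact sum_congr rfl fun k hk => by rw [hB k hk, neg_mul]
  simp only [e1, e2, e3, e4] at h2
  have i1 := integrable_bd (measurable_cos.comp ((meas_lin A a).add (meas_lin B a))) 1
    fun ε => abs_cos_le_one _
  have i2 := integrable_bd (measurable_cos.comp ((meas_lin A a).add (meas_lin B a).neg)) 1
    fun ε => abs_cos_le_one _
  have h3 := integral_add i1 i2
  simp only [Function.comp, Pi.add_apply, Pi.neg_apply] at h3
  rw [h1, h2] at h3
  have h4 : ∀ x y : ℝ, cos (x + y) + cos (x + -y) = 2 * (cos x * cos y) := fun x y => by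
    rw [cos_add, cos_add, cos_neg, sin_neg]; ring
  simp only [h4, integral_const_mul] at h3
  linarith

lemma second_moment (K : ℕ) (A : ℕ → Finset ℕ) (hA : ∀ i l, i ≠ l → Disjoint (A i) (A l))
    (a : ℕ → ℝ) (D : ℝ) (hD : ∀ i, ∏ k ∈ A i, cos (a k) = D) :
    ∫ ε, (∑ i ∈ range K, (cos (∑ k ∈ A i, a k * sg (ε k)) - D)) ^ 2 ∂coin ≤ K := by
  let Z : ℕ → (ℕ → Bool) → ℝ := fun i ε => cos (∑ k ∈ A i, a k * sg (ε k))
  have hZm : ∀ i, Measurable (Z i) := fun i => measurable_cos.comp (meas_lin _ _)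
  have hZi : ∀ i, Integrable (Z i) coin := fun i => integrable_bd (hZm i) 1 fun ε =>
    abs_cos_le_one _
  have hZb : ∀ i l ε, |Z i ε * Z l ε| ≤ 1 := fun i l ε => by
    rw [abs_mul]; exact mul_le_one₀ (abs_cos_le_one _) (abs_nonneg _) (abs_cos_le_one _)
  have hZZ : ∀ i l, Integrable (fun ε => Z i ε * Z l ε) coin := fun i l =>
    integrable_bd ((hZm i).mul (hZm l)) 1 (hZb i l)
  have hE : ∀ i, ∫ ε, Z i ε ∂coin = D := fun i => (integral_cos_lin _ _).trans (hD i)
  have hexp : ∀ i l ε, (Z i ε - D) * (Z l ε - D) = Z i ε * Z l ε - D * Z i ε - D * Z l ε + D ^ 2 :=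
    fun i l ε => by ring
  have hint : ∀ i l, Integrable (fun ε => (Z i ε - D) * (Z l ε - D)) coin := fun i l => by
    simp only [hexp]
    exact (((hZZ i l).sub ((hZi i).const_mul _)).sub ((hZi l).const_mul _)).add (integrable_const _)
  have hcov : ∀ i l, ∫ ε, (Z i ε - D) * (Z l ε - D) ∂coin = ∫ ε, Z i ε * Z l ε ∂coin - D ^ 2 := by
    intro i l
    simp only [hexp]
    rw [integral_add, integral_sub, integral_sub, integral_const_mul, integral_const_mul, hE, hE]
    · simp; ring
    · exact hZZ i l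
    · exact (hZi i).const_mul _
    · exact (hZZ i l).sub ((hZi i).const_mul _)
    · exact (hZi l).const_mul _
    · exact ((hZZ i l).sub ((hZi i).const_mul _)).sub ((hZi l).const_mul _)
    · exact integrable_const _
  change ∫ ε, (∑ i ∈ range K, (Z i ε - D)) ^ 2 ∂coin ≤ K
  simp only [sq, sum_mul_sum]
  rw [integral_finsetSum _ fun i _ => integrable_finsetSum _ fun l _ => hint i l]
  calc _ ≤ ∑ _i ∈ range K, (1 : ℝ) := by
        refine sum_le_sum fun i hi => ?_
        rw [integral_finsetSum _ fun l _ => hint i l, sum_eq_single i]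
        · rw [hcov]
          have : ∫ ε, Z i ε * Z i ε ∂coin ≤ ∫ _ε, (1 : ℝ) ∂coin :=
            integral_mono (hZZ i i) (integrable_const _) fun ε =>
              (le_abs_self _).trans (hZb i i ε)
          simp at this
          nlinarith [sq_nonneg D]
        · intro l _ hl
          rw [hcov, integral_cos_mul _ _ (hA i l hl.symm), hD, hD]; ring
        · intro h; exact absurd hi h
    _ = K := by simp

lemma abs_int_cos (c R : ℝ) (hc : c ≠ 0) : |∫ x in (-R)..R, cos (c * x)| ≤ 2 / |c| := by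
  rw [intervalIntegral.integral_comp_mul_left (fun x => cos x) hc, integral_cos, smul_eq_mul,
    abs_mul, abs_inv, inv_mul_eq_div]
  gcongr
  refine (abs_sub _ _).trans ?_
  linarith [abs_sin_le_one (c * R), abs_sin_le_one (c * -R)]

lemma leb_moment (K : ℕ) (ξ : ℕ → ℝ) (R : ℝ) (hR : 0 ≤ R)
    (h : ∀ i l, i ≠ l → (K : ℝ) ≤ |ξ i - ξ l| ∧ (K : ℝ) ≤ |ξ i + ξ l|) :
    ∫ x in (-R)..R, (∑ i ∈ range K, cos (ξ i * x)) ^ 2 ≤ K * (2 * R + 2) := by
  simp only [sq, sum_mul_sum]
  have hi : ∀ i l, IntervalIntegrable (fun x => cos (ξ i * x) * cos (ξ l * x)) volume (-R) R :=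
    fun i l => Continuous.intervalIntegrable (by fun_prop) _ _
  rw [intervalIntegral.integral_finsetSum fun i _ => Continuous.intervalIntegrable (by fun_prop) _ _]
  calc _ ≤ ∑ _i ∈ range K, (2 * R + 2) := by
        refine sum_le_sum fun i hi' => ?_
        have hK : (0 : ℝ) < K := by
          have := mem_range.1 hi'
          exact_mod_cast (show 0 < K by omega)
        rw [intervalIntegral.integral_finsetSum fun l _ => hi i l]
        have hb : ∀ l ∈ range K, ∫ x in (-R)..R, cos (ξ i * x) * cos (ξ l * x) ≤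
            (if l = i then 2 * R else 0) + 2 / K := by
          intro l _
          split_ifs with hl
          · have : ∫ x in (-R)..R, cos (ξ i * x) * cos (ξ l * x) ≤ ∫ _x in (-R)..R, (1 : ℝ) := by
              refine intervalIntegral.integral_mono_on (by linarith) (hi i l)
                (Continuous.intervalIntegrable (by fun_prop) _ _) fun x _ => ?_
              refine (le_abs_self _).trans ?_
              rw [abs_mul]; exact mul_le_one₀ (abs_cos_le_one _) (abs_nonneg _) (abs_cos_le_one _)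
            simp at this
            have : 0 < 2 / (K : ℝ) := by positivity
            linarith
          · obtain ⟨h1, h2⟩ := h i l (Ne.symm hl)
            have e : ∀ x, cos (ξ i * x) * cos (ξ l * x) =
                (1 / 2) * cos ((ξ i - ξ l) * x) + (1 / 2) * cos ((ξ i + ξ l) * x) := fun x => by
              rw [sub_mul, add_mul, cos_add, cos_sub]; ring
            simp only [e]
            rw [intervalIntegral.integral_add (Continuous.intervalIntegrable (by fun_prop) _ _)
              (Continuous.intervalIntegrable (by fun_prop) _ _),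
              intervalIntegral.integral_const_mul, intervalIntegral.integral_const_mul]
            have b1 := (le_abs_self _).trans (abs_int_cos (ξ i - ξ l) R
              (abs_pos.1 (by linarith)))
            have b2 := (le_abs_self _).trans (abs_int_cos (ξ i + ξ l) R
              (abs_pos.1 (by linarith)))
            have b3 : 2 / |ξ i - ξ l| ≤ 2 / K := by gcongr
            have b4 : 2 / |ξ i + ξ l| ≤ 2 / K := by gcongr
            linarith
        refine (sum_le_sum hb).trans ?_
        rw [sum_add_distrib, sum_ite_eq' (range K) i, if_pos hi', sum_const, card_range,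
          nsmul_eq_mul, mul_div_cancel₀ _ hK.ne']
    _ = _ := by simp; ring

lemma sum_near_int (m : ℕ) (x e : ℕ → ℝ) (h : ∀ k < m, ∃ n : ℤ, |x k - n| ≤ e k) :
    ∃ n : ℤ, |∑ k ∈ range m, x k - n| ≤ ∑ k ∈ range m, e k := by
  induction m with
  | zero => exact ⟨0, by simp⟩
  | succ m ih =>
    obtain ⟨n, hn⟩ := ih fun k hk => h k (by omega)
    obtain ⟨n', hn'⟩ := h m (by omega)
    refine ⟨n + n', ?_⟩
    rw [sum_range_succ, sum_range_succ]
    push_cast
    rw [show ∑ k ∈ range m, x k + x m - (n + n') = (∑ k ∈ range m, x k - n) + (x m - n') by ring]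
    exact (abs_add_le _ _).trans (add_le_add hn hn')

lemma decomp {β : ℝ} {ω : ℂ} (hβ : 1 < β) (hω : ‖ω‖ = 1) {u s : ℝ} {c : ℂ} (htr : Tr β ω u s c)
    (L m : ℕ) (ε : ℕ → Bool) :
    |cos (2 * π * (u * β ^ (m + L) * β⁻¹) * signedPowerSum β⁻¹ ε) -
      cos (∑ i ∈ range L, 2 * π * (u * β ^ (L - 1 - i)) * sg (ε (m + i)))| ≤
      7 * (β / (β - 1) * |u| + β / (β - 1) * (|s| * β⁻¹ ^ L) + 2 * ‖c‖ * m) := by
  have hβ0 : 0 < β := by linarith
  set γ := β⁻¹ with hγ
  have hγ0 : 0 < γ := by positivity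
  have hγ1 : γ < 1 := inv_lt_one_of_one_lt₀ hβ
  have hγβ : ∀ k : ℕ, β ^ k * γ ^ k = 1 := fun k => by
    rw [← mul_pow, hγ, mul_inv_cancel₀ hβ0.ne', one_pow]
  have hX : signedPowerSum γ ε = ∑' k, sg (ε k) * γ ^ k := by
    unfold signedPowerSum
    congr 1; funext k
    cases ε k <;> simp [sg]
  have hgeo := hasSum_geometric_of_lt_one hγ0.le hγ1
  have hsum : Summable fun k => sg (ε k) * γ ^ k := by
    refine Summable.of_norm_bounded hgeo.summable fun k => ?_
    rw [Real.norm_eq_abs, abs_mul, abs_sg, one_mul, abs_of_pos (by positivity)]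
  set W := u * β ^ (m + L) * γ with hW
  have h1 : W * signedPowerSum γ ε = ∑ k ∈ range m, W * (sg (ε k) * γ ^ k) +
      ∑ i ∈ range L, u * β ^ (L - 1 - i) * sg (ε (m + i)) +
      ∑' k, W * (sg (ε (k + (m + L))) * γ ^ (k + (m + L))) := by
    rw [hX, ← hsum.sum_add_tsum_nat_add (m + L), mul_add, tsum_mul_left, sum_range_add, mul_add,
      mul_sum, mul_sum]
    congr 2
    refine sum_congr rfl fun i hi => ?_
    obtain ⟨r, rfl⟩ : ∃ r, L = r + 1 + i := ⟨L - 1 - i, by have := mem_range.1 hi; omega⟩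
    rw [show r + 1 + i - 1 - i = r by omega, hW, show m + (r + 1 + i) = r + (m + i + 1) by ring,
      pow_add β r]
    have := hγβ (m + i + 1)
    calc _ = u * β ^ r * sg (ε (m + i)) * (β ^ (m + i + 1) * γ ^ (m + i + 1)) := by ring
      _ = _ := by rw [this, mul_one]
  obtain ⟨n, hn⟩ := sum_near_int m (fun k => W * (sg (ε k) * γ ^ k))
    (fun k => |s| * γ ^ L * γ ^ (m - 1 - k) + 2 * ‖c‖) (by
      intro k hk
      obtain ⟨r, rfl⟩ : ∃ r, m = r + 1 + k := ⟨m - 1 - k, by omega⟩
      obtain ⟨n, hn⟩ := htr.nat hω le_rfl (L + r)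
      have e1 : W * (sg (ε k) * γ ^ k) = sg (ε k) * (u * β ^ (L + r)) := by
        rw [hW, show r + 1 + k + L = (L + r) + (k + 1) by ring, pow_add β (L + r)]
        have := hγβ (k + 1)
        calc _ = sg (ε k) * (u * β ^ (L + r)) * (β ^ (k + 1) * γ ^ (k + 1)) := by ring
          _ = _ := by rw [this, mul_one]
      have e2 : |u * β ^ (L + r) - n| ≤ |s| * γ ^ L * γ ^ r + 2 * ‖c‖ := by
        rw [show u * β ^ (L + r) - n = (u * β ^ (L + r) + s * γ ^ (L + r) - n) - s * γ ^ (L + r)
          by ring]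
        refine (abs_sub _ _).trans ?_
        have e3 : |s * γ ^ (L + r)| = |s| * γ ^ L * γ ^ r := by
          rw [abs_mul s, abs_of_pos (by positivity : 0 < γ ^ (L + r)), pow_add γ, mul_assoc]
        linarith
      rw [show r + 1 + k - 1 - k = r by omega, e1]
      cases ε k
      · refine ⟨-n, ?_⟩
        rw [show sg false * (u * β ^ (L + r)) - ((-n : ℤ) : ℝ) = -(u * β ^ (L + r) - n) by
          simp [sg]; ring, abs_neg]
        exact e2
      · exact ⟨n, by simpa [sg] using e2⟩)
  have h2 : ∑ k ∈ range m, (|s| * γ ^ L * γ ^ (m - 1 - k) + 2 * ‖c‖) ≤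
      β / (β - 1) * (|s| * γ ^ L) + 2 * ‖c‖ * m := by
    rw [sum_add_distrib, ← mul_sum, sum_range_reflect (fun k => γ ^ k), sum_const, card_range,
      nsmul_eq_mul]
    have := mul_le_mul_of_nonneg_left (geo_le hβ m) (by positivity : 0 ≤ |s| * γ ^ L)
    linarith
  have h3 : |∑' k, W * (sg (ε (k + (m + L))) * γ ^ (k + (m + L)))| ≤ β / (β - 1) * |u| := by
    have := tsum_of_norm_bounded (f := fun k => W * (sg (ε (k + (m + L))) * γ ^ (k + (m + L))))
      (hgeo.mul_left |u|) fun k => by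
        have e1 : W * (sg (ε (k + (m + L))) * γ ^ (k + (m + L))) =
            u * (sg (ε (k + (m + L))) * (γ * γ ^ k)) := by
          rw [hW, pow_add γ k]
          have := hγβ (m + L)
          calc _ = u * (sg (ε (k + (m + L))) * (γ * γ ^ k)) * (β ^ (m + L) * γ ^ (m + L)) := by
                ring
            _ = _ := by rw [this, mul_one]
        rw [e1, Real.norm_eq_abs, abs_mul, abs_mul, abs_sg, one_mul,
          abs_of_pos (by positivity : 0 < γ * γ ^ k)]
        gcongr
        exact mul_le_of_le_one_left (by positivity) hγ1.le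
    rw [Real.norm_eq_abs] at this
    refine this.trans (le_of_eq ?_)
    have : β - 1 ≠ 0 := by linarith
    rw [hγ]; field_simp
  have h4 := cos_lip (W * signedPowerSum γ ε)
    (∑ i ∈ range L, u * β ^ (L - 1 - i) * sg (ε (m + i)) + n)
  rw [cos_add_int, mul_sum] at h4
  simp only [← mul_assoc] at h4 ⊢
  refine h4.trans ?_
  gcongr
  rw [h1]
  rw [show ∀ a b c d : ℝ, a + b + c - (b + d) = c + (a - d) from fun a b c d => by ring]
  refine (abs_add_le _ _).trans ?_
  linarith

theorem good_set {β : ℝ} {ω : ℂ} (hβ : 1 < β) (hβ2 : β < 2) (hω : ‖ω‖ = 1) (htr : Tr β ω 1 1 1)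
    (hi : IsIntegral ℤ β) (hi' : IsIntegral ℤ β⁻¹) (n : ℕ) :
    ∃ E : Set ℝ, MeasurableSet E ∧
      volume (E ∩ Set.Ioc (-(n : ℝ)) n) ≤ ENNReal.ofReal ((1 / 2) ^ n) ∧
      coin {ε | signedPowerSum β⁻¹ ε ∉ E} ≤ ENNReal.ofReal ((1 / 2) ^ n) := by
  have hβ0 : 0 < β := by linarith
  have h2n : (1 : ℝ) ≤ 2 ^ n := one_le_pow₀ (by norm_num)
  have hn0 : (0 : ℝ) ≤ n := Nat.cast_nonneg n
  obtain ⟨u, s, c, L, K, δ, htr', hδ, hPA, hl, hL, hH, hη⟩ :=
    key hβ hω htr hi hi' (16 * (n + 1) * 2 ^ n) (by nlinarith)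
  have hK : (0 : ℝ) < K := by
    by_contra h
    have : (K : ℝ) * δ ^ 2 ≤ 0 := mul_nonpos_of_nonpos_of_nonneg (not_lt.1 h) (sq_nonneg _)
    nlinarith
  have hL2 : 2 ≤ β ^ L := by
    rw [inv_pow, inv_le_comm₀ (by positivity) (by norm_num)] at hL
    simpa using hL
  have hL0 : 0 < L := by
    rcases Nat.eq_zero_or_pos L with h | h
    · rw [h] at hL2; norm_num at hL2
    · exact h
  have hhalf : (1 / 2 : ℝ) ^ n * 2 ^ n = 1 := by rw [← mul_pow]; norm_num
  let ξ : ℕ → ℝ := fun i => 2 * π * (u * β ^ (L * (K + i) + L) * β⁻¹)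
  let Φ : ℝ → ℝ := fun x => ∑ i ∈ range K, cos (ξ i * x)
  have hΦc : Continuous Φ := by fun_prop
  refine ⟨{x | K * δ / 2 ≤ |Φ x|}, measurableSet_le measurable_const hΦc.abs.measurable, ?_, ?_⟩
  · have hξ : ∀ i, (K : ℝ) ≤ |ξ i| := by
      intro i
      have e1 : |ξ i| = 2 * π * β⁻¹ * (|u| * β ^ L) * (β ^ L) ^ (K + i) := by
        simp only [ξ]
        rw [abs_mul, abs_mul, abs_mul, abs_mul, abs_two, abs_of_pos pi_pos,
          abs_of_pos (by positivity : 0 < β ^ (L * (K + i) + L)),
          abs_of_pos (by positivity : 0 < β⁻¹), pow_add, pow_mul]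
        ring
      have e2 : (K : ℝ) ≤ (β ^ L) ^ (K + i) := by
        calc (K : ℝ) ≤ 2 ^ K := by exact_mod_cast (Nat.lt_two_pow_self).le
          _ ≤ 2 ^ (K + i) := pow_le_pow_right₀ (by norm_num) (by omega)
          _ ≤ _ := by gcongr
      have e3 : 1 ≤ 2 * π * β⁻¹ := by
        rw [← div_eq_mul_inv, le_div_iff₀ hβ0]; linarith [pi_gt_three]
      rw [e1]
      calc (K : ℝ) = 1 * 1 * K := by ring
        _ ≤ _ := by gcongr
    have hlt : ∀ i l, i < l → (K : ℝ) ≤ |ξ i - ξ l| ∧ (K : ℝ) ≤ |ξ i + ξ l| := by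
      intro i l hil
      obtain ⟨d, rfl⟩ : ∃ d, l = i + (d + 1) := ⟨l - i - 1, by omega⟩
      have e1 : ξ (i + (d + 1)) = ξ i * (β ^ L) ^ (d + 1) := by
        simp only [ξ]; ring
      have e2 : 2 ≤ (β ^ L) ^ (d + 1) := hL2.trans (le_self_pow₀ (by linarith) (by omega))
      rw [e1, ← mul_one_sub, ← mul_one_add, abs_mul (ξ i), abs_mul (ξ i),
        abs_of_nonpos (by linarith : 1 - (β ^ L) ^ (d + 1) ≤ 0),
        abs_of_nonneg (by linarith : 0 ≤ 1 + (β ^ L) ^ (d + 1))]
      have := hξ i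
      constructor <;> nlinarith
    have hm := leb_moment K ξ n hn0 fun i l hil => by
      rcases lt_or_gt_of_ne hil with h | h
      · exact hlt i l h
      · rw [abs_sub_comm, add_comm]; exact hlt l i h
    rw [intervalIntegral.integral_of_le (by linarith)] at hm
    have hch := mul_meas_ge_le_integral_of_nonneg (μ := volume.restrict (Set.Ioc (-(n : ℝ)) n))
      (f := fun x => Φ x ^ 2) (Eventually.of_forall fun x => sq_nonneg _)
      ((hΦc.pow 2).integrableOn_Icc.mono_set Set.Ioc_subset_Icc_self) ((K * δ / 2) ^ 2)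
    have hset : {x | (K * δ / 2) ^ 2 ≤ Φ x ^ 2} = {x | K * δ / 2 ≤ |Φ x|} := by
      ext x
      simp only [Set.mem_ofPred_eq]
      rw [sq_le_sq, abs_of_pos (by positivity)]
    rw [hset, measureReal_restrict_apply (measurableSet_le measurable_const hΦc.abs.measurable)]
      at hch
    refine (ENNReal.le_ofReal_iff_toReal_le ?_ (by positivity)).2 ?_
    · exact ((measure_mono Set.inter_subset_right).trans_lt measure_Ioc_lt_top).ne
    · have h3 := hch.trans hm
      change volume.real _ ≤ _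
      set v := volume.real ({x | K * δ / 2 ≤ |Φ x|} ∩ Set.Ioc (-(n : ℝ)) n)
      have hv : 0 ≤ v := measureReal_nonneg
      have h4 : K * δ ^ 2 * v ≤ 8 * (n + 1) := by
        have : K * (K * δ ^ 2 * v) ≤ K * (8 * (n + 1)) := by linarith
        exact le_of_mul_le_mul_left this hK
      have h5 : 16 * (n + 1) * 2 ^ n * v ≤ 8 * (n + 1) := le_trans (by gcongr) h4
      have h6 : 2 ^ n * v ≤ 1 := by nlinarith
      have h7 : 0 < (1 / 2 : ℝ) ^ n := by positivity
      calc v = (1 / 2) ^ n * (2 ^ n * v) := by rw [← mul_assoc, hhalf, one_mul]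
        _ ≤ (1 / 2) ^ n * 1 := by gcongr
        _ = _ := mul_one _
  · let a : ℕ → ℝ := fun k => 2 * π * (u * β ^ (L - 1 - k % L))
    let A : ℕ → Finset ℕ := fun i => Ico (L * (K + i)) (L * (K + i) + L)
    let D : ℝ := ∏ j ∈ range L, cos (2 * π * (u * β ^ j))
    have hmod : ∀ i j, j < L → (L * (K + i) + j) % L = j := fun i j hj => by
      rw [Nat.mul_add_mod, Nat.mod_eq_of_lt hj]
    have hD : ∀ i, ∏ k ∈ A i, cos (a k) = D := by
      intro i
      simp only [A, D]
      rw [prod_Ico_eq_prod_range, Nat.add_sub_cancel_left,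
        ← prod_range_reflect (fun j => cos (2 * π * (u * β ^ j)))]
      exact prod_congr rfl fun j hj => by simp only [a, hmod i j (mem_range.1 hj)]
    have hDδ : δ ≤ |D| := by
      simp only [D]; rw [abs_prod]; exact hPA
    have hdis : ∀ i l, i ≠ l → Disjoint (A i) (A l) := by
      have : ∀ i l, i < l → Disjoint (A i) (A l) := by
        intro i l h
        rw [Finset.disjoint_left]
        intro k hk hk'
        simp only [A, mem_Ico] at hk hk'
        have : L * (K + i + 1) ≤ L * (K + l) := Nat.mul_le_mul_left _ (by omega)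
        rw [mul_add_one] at this
        omega
      intro i l hil
      rcases lt_or_gt_of_ne hil with h | h
      · exact this i l h
      · exact (this l i h).symm
    have hm := second_moment K A hdis a D hD
    let S : (ℕ → Bool) → ℝ := fun ε => ∑ i ∈ range K, (cos (∑ k ∈ A i, a k * sg (ε k)) - D)
    have hSm : Measurable S := Finset.measurable_sum _ fun i _ =>
      (measurable_cos.comp (meas_lin _ _)).sub_const _
    have hSi : Integrable (fun ε => S ε ^ 2) coin := by
      refine integrable_bd (hSm.pow_const 2) ((K * (1 + |D|)) ^ 2) fun ε => ?_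
      rw [abs_pow]
      gcongr
      refine (abs_sum_le_sum_abs _ _).trans ?_
      calc _ ≤ ∑ _i ∈ range K, (1 + |D|) := sum_le_sum fun i _ =>
            (abs_sub _ _).trans (add_le_add_left (abs_cos_le_one _) _)
        _ = _ := by simp; ring
    have hch := mul_meas_ge_le_integral_of_nonneg (μ := coin) (f := fun ε => S ε ^ 2)
      (Eventually.of_forall fun x => sq_nonneg _) hSi ((K * δ / 4) ^ 2)
    have hsub : {ε | signedPowerSum β⁻¹ ε ∉ {x | K * δ / 2 ≤ |Φ x|}} ⊆
        {ε | (K * δ / 4) ^ 2 ≤ S ε ^ 2} := by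
      intro ε hε
      simp only [Set.mem_ofPred_eq, not_le] at hε ⊢
      rw [sq_le_sq, abs_of_pos (by positivity)]
      have h1 : |Φ (signedPowerSum β⁻¹ ε) - (S ε + K * D)| ≤ K * (δ / 4) := by
        have : Φ (signedPowerSum β⁻¹ ε) - (S ε + K * D) = ∑ i ∈ range K,
            (cos (ξ i * signedPowerSum β⁻¹ ε) - cos (∑ k ∈ A i, a k * sg (ε k))) := by
          simp only [Φ, S, sum_sub_distrib, sum_const, card_range, nsmul_eq_mul]; ring
        rw [this]
        refine (abs_sum_le_sum_abs _ _).trans ?_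
        calc _ ≤ ∑ _i ∈ range K, δ / 4 := sum_le_sum fun i hi => ?_
          _ = _ := by simp
        have e1 : ∑ k ∈ A i, a k * sg (ε k) =
            ∑ j ∈ range L, 2 * π * (u * β ^ (L - 1 - j)) * sg (ε (L * (K + i) + j)) := by
          simp only [A]
          rw [sum_Ico_eq_sum_range, Nat.add_sub_cancel_left]
          exact sum_congr rfl fun j hj => by simp only [a, hmod i j (mem_range.1 hj)]
        rw [e1]
        refine (decomp hβ hω htr' L (L * (K + i)) ε).trans (le_trans ?_ hη)
        gcongr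
        have : L * (K + i) ≤ 2 * K * L := by have := mem_range.1 hi; nlinarith
        exact_mod_cast this
      have h2 : K * δ ≤ |K * D| := by rw [abs_mul, abs_of_pos hK]; gcongr
      have h3 : |K * D| ≤ |Φ (signedPowerSum β⁻¹ ε)| +
          |Φ (signedPowerSum β⁻¹ ε) - (S ε + K * D)| + |S ε| := by
        have e : (K : ℝ) * D = Φ (signedPowerSum β⁻¹ ε) -
          (Φ (signedPowerSum β⁻¹ ε) - (S ε + K * D)) - S ε := by ring
        conv_lhs => rw [e]
        exact (abs_sub _ _).trans (add_le_add_left (abs_sub _ _) _)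
      linarith
    refine (measure_mono hsub).trans ?_
    refine (ENNReal.le_ofReal_iff_toReal_le (measure_ne_top _ _) (by positivity)).2 ?_
    have h3 := hch.trans hm
    change coin.real _ ≤ _
    set v := coin.real {ε | (K * δ / 4) ^ 2 ≤ S ε ^ 2}
    have hv : 0 ≤ v := measureReal_nonneg
    have h4 : K * δ ^ 2 * v ≤ 16 := by
      have : K * (K * δ ^ 2 * v) ≤ K * 16 := by linarith
      exact le_of_mul_le_mul_left this hK
    have h5 : 16 * (n + 1) * 2 ^ n * v ≤ 16 := le_trans (by gcongr) h4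
    have h8 : 0 ≤ 2 ^ n * v := by positivity
    have h6 : 2 ^ n * v ≤ 1 := by nlinarith
    calc v = (1 / 2) ^ n * (2 ^ n * v) := by rw [← mul_assoc, hhalf, one_mul]
      _ ≤ (1 / 2) ^ n * 1 := by gcongr
      _ = _ := mul_one _

theorem main {β : ℝ} (hβ : IsQuarticSalem β) (hβ₂ : β < 2) :
    (bernoulliConvolution β⁻¹).MutuallySingular (volume : Measure ℝ) := by
  obtain ⟨ω, hω, p, q, hp, hq⟩ := exists_factor hβ
  have h1 := hβ.1
  have htr := tr_base (by linarith) hω hp hq
  choose E hEm hE1 hE2 using good_set h1 hβ₂ hω htr hβ.2.1 (integral_inv hβ)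
  by_cases hX : AEMeasurable (signedPowerSum β⁻¹) coin
  swap
  · unfold bernoulliConvolution
    rw [Measure.map_of_not_aemeasurable hX]
    exact Measure.MutuallySingular.zero_left
  have hs : ∑' n : ℕ, ENNReal.ofReal ((1 / 2 : ℝ) ^ n) ≠ ⊤ := by
    rw [← ENNReal.ofReal_tsum_of_nonneg (fun n => by positivity) summable_geometric_two]
    exact ENNReal.ofReal_ne_top
  have b1 := ae_eventually_notMem (μ := volume) (s := fun n => E n ∩ Set.Ioc (-(n : ℝ)) n)
    (ne_top_of_le_ne_top hs (ENNReal.tsum_le_tsum hE1))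
  have b2 := ae_eventually_notMem (μ := coin) (s := fun n => {ε | signedPowerSum β⁻¹ ε ∉ E n})
    (ne_top_of_le_ne_top hs (ENNReal.tsum_le_tsum hE2))
  have hm : MeasurableSet (liminf E atTop) := MeasurableSet.measurableSet_liminf hEm
  refine ⟨(liminf E atTop)ᶜ, hm.compl, ?_, ?_⟩
  · unfold bernoulliConvolution
    rw [Measure.map_apply_of_aemeasurable hX hm.compl]
    refine measure_mono_null (fun ε hε => ?_) b2
    intro h
    apply hε
    rw [mem_liminf_iff_eventually_mem]
    simpa using h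
  · rw [compl_compl]
    refine measure_mono_null (fun x hx => ?_) b1
    intro h
    rw [mem_liminf_iff_eventually_mem] at hx
    have h3 : ∀ᶠ n : ℕ in atTop, |x| < n :=
      tendsto_natCast_atTop_atTop.eventually (eventually_gt_atTop |x|)
    obtain ⟨n, h4, h5, h6⟩ := (hx.and (h3.and h)).exists
    exact h6 ⟨h4, by linarith [neg_abs_le x], by linarith [le_abs_self x]⟩

end Crest.Agent.H0104
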